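import Vale.Agent.P216R.Basic
import Mathlib.Analysis.SpecialFunctions.Trigonometric.Deriv
import Mathlib.Analysis.SpecialFunctions.Complex.Arg
import Mathlib.Analysis.InnerProductSpace.Calculus

/-!
# Screw motions and cylindrical coordinates in `E3`
-/

open Set Topology Manifold Real
open Filter hiding comap comap_id
open scoped ContDiff

noncomputable section

namespace Vale.Agent.P216FL

open Vale.Agent.P216R

/-- rotation by `θ` about the third axis and translation by `t` along it -/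
def scw (θ t : ℝ) (z : E3) : E3 :=
  !₂[cos θ * z 0 - sin θ * z 1, sin θ * z 0 + cos θ * z 1, z 2 + t]

/-- cylindrical coordinates: angle `α * p 0`, height `p 1`, radius `p 2 + R` -/
def pol (α R : ℝ) (p : E3) : E3 := !₂[(p 2 + R) * cos (α * p 0), (p 2 + R) * sin (α * p 0), p 1]

/-- distance to the third axis -/
def rad (z : E3) : ℝ := √(z 0 ^ 2 + z 1 ^ 2)

/-- horizontal translation -/
def sh (a b : ℝ) (p : E3) : E3 := !₂[p 0 + a, p 1 + b, p 2]

@[simp] theorem scw_0 (θ t : ℝ) (z : E3) : scw θ t z 0 = cos θ * z 0 - sin θ * z 1 := rfl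
@[simp] theorem scw_1 (θ t : ℝ) (z : E3) : scw θ t z 1 = sin θ * z 0 + cos θ * z 1 := rfl
@[simp] theorem scw_2 (θ t : ℝ) (z : E3) : scw θ t z 2 = z 2 + t := rfl
@[simp] theorem pol_0 (α R : ℝ) (p : E3) : pol α R p 0 = (p 2 + R) * cos (α * p 0) := rfl
@[simp] theorem pol_1 (α R : ℝ) (p : E3) : pol α R p 1 = (p 2 + R) * sin (α * p 0) := rfl
@[simp] theorem pol_2 (α R : ℝ) (p : E3) : pol α R p 2 = p 1 := rfl
@[simp] theorem sh_0 (a b : ℝ) (p : E3) : sh a b p 0 = p 0 + a := rfl
@[simp] theorem sh_1 (a b : ℝ) (p : E3) : sh a b p 1 = p 1 + b := rfl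
@[simp] theorem sh_2 (a b : ℝ) (p : E3) : sh a b p 2 = p 2 := rfl

theorem E3_ext {x y : E3} (h0 : x 0 = y 0) (h1 : x 1 = y 1) (h2 : x 2 = y 2) : x = y := by
  ext i
  fin_cases i
  exacts [h0, h1, h2]

theorem scw_zero (z : E3) : scw 0 0 z = z := by apply E3_ext <;> simp

theorem scw_scw (θ t θ' t' : ℝ) (z : E3) : scw θ t (scw θ' t' z) = scw (θ + θ') (t + t') z := by
  apply E3_ext <;> simp only [scw_0, scw_1, scw_2, cos_add, sin_add] <;> ring

theorem scw_add_int (θ t : ℝ) (m : ℤ) (z : E3) : scw (θ + m * (2 * π)) t z = scw θ t z := by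
  apply E3_ext <;> simp only [scw_0, scw_1, scw_2, cos_add_int_mul_two_pi, sin_add_int_mul_two_pi]

theorem sh_zero (p : E3) : sh 0 0 p = p := by apply E3_ext <;> simp

theorem sh_sh (a b a' b' : ℝ) (p : E3) : sh a b (sh a' b' p) = sh (a + a') (b + b') p := by
  apply E3_ext <;> simp only [sh_0, sh_1, sh_2] <;> ring

theorem pol_sh (α R a b : ℝ) (p : E3) : pol α R (sh a b p) = scw (α * a) b (pol α R p) := by
  apply E3_ext <;>
    simp only [scw_0, scw_1, scw_2, pol_0, pol_1, pol_2, sh_0, sh_1, sh_2, mul_add, cos_add,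
      sin_add] <;> ring

theorem rad_nonneg (z : E3) : 0 ≤ rad z := sqrt_nonneg _

theorem rad_sq (z : E3) : rad z ^ 2 = z 0 ^ 2 + z 1 ^ 2 := sq_sqrt (by positivity)

theorem rad_scw (θ t : ℝ) (z : E3) : rad (scw θ t z) = rad z := by
  unfold rad
  congr 1
  simp only [scw_0, scw_1]
  linear_combination (z 0 ^ 2 + z 1 ^ 2) * cos_sq_add_sin_sq θ

theorem rad_pol {α R : ℝ} {p : E3} (h : 0 ≤ p 2 + R) : rad (pol α R p) = p 2 + R := by
  unfold rad
  rw [← sqrt_sq h]
  congr 1
  simp only [pol_0, pol_1]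
  linear_combination (p 2 + R) ^ 2 * cos_sq_add_sin_sq (α * p 0)

theorem cont_co (i : Fin 3) : Continuous fun z : E3 => z i := by fun_prop

theorem contDiff_co (i : Fin 3) : ContDiff ℝ ∞ fun z : E3 => z i :=
  (EuclideanSpace.proj i : E3 →L[ℝ] ℝ).contDiff

theorem continuous_rad : Continuous rad := by unfold rad; fun_prop

theorem contDiff_mk {f g h : E3 → ℝ} (hf : ContDiff ℝ ∞ f) (hg : ContDiff ℝ ∞ g)
    (hh : ContDiff ℝ ∞ h) : ContDiff ℝ ∞ fun z => (!₂[f z, g z, h z] : E3) := by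
  rw [contDiff_euclidean]
  intro i
  fin_cases i
  exacts [hf, hg, hh]

theorem contDiff_scw (θ t : ℝ) : ContDiff ℝ ∞ (scw θ t) :=
  contDiff_mk ((contDiff_const.mul (contDiff_co 0)).sub (contDiff_const.mul (contDiff_co 1)))
    ((contDiff_const.mul (contDiff_co 0)).add (contDiff_const.mul (contDiff_co 1)))
    ((contDiff_co 2).add contDiff_const)

theorem contDiff_sh (a b : ℝ) : ContDiff ℝ ∞ (sh a b) :=
  contDiff_mk ((contDiff_co 0).add contDiff_const) ((contDiff_co 1).add contDiff_const)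
    (contDiff_co 2)

theorem contDiff_pol (α R : ℝ) : ContDiff ℝ ∞ (pol α R) :=
  contDiff_mk (((contDiff_co 2).add contDiff_const).mul (contDiff_const.mul (contDiff_co 0)).cos)
    (((contDiff_co 2).add contDiff_const).mul (contDiff_const.mul (contDiff_co 0)).sin)
    (contDiff_co 1)

theorem ld_scw (θ t : ℝ) : LD E3 (scw θ t) univ :=
  ld_of_left_inv isOpen_univ (contDiff_scw θ t).contMDiff.contMDiffOn (k := scw (-θ) (-t))
    (fun _ _ => SM.md (contDiff_scw _ _).contMDiff.contMDiffAt)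
    fun x _ => by rw [scw_scw, neg_add_cancel, neg_add_cancel, scw_zero]

theorem ld_sh (a b : ℝ) : LD E3 (sh a b) univ :=
  ld_of_left_inv isOpen_univ (contDiff_sh a b).contMDiff.contMDiffOn (k := sh (-a) (-b))
    (fun _ _ => SM.md (contDiff_sh _ _).contMDiff.contMDiffAt)
    fun x _ => by rw [sh_sh, neg_add_cancel, neg_add_cancel, sh_zero]

theorem fderiv_pol (α R : ℝ) (p v : E3) : fderiv ℝ (pol α R) p v =
    !₂[v 2 * cos (α * p 0) - (p 2 + R) * sin (α * p 0) * (α * v 0),
      v 2 * sin (α * p 0) + (p 2 + R) * cos (α * p 0) * (α * v 0), v 1] := by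
  have hd := ((contDiff_pol α R).differentiable (by simp)) p
  have key : ∀ i, fderiv ℝ (pol α R) p v i = fderiv ℝ (fun q => pol α R q i) p v := fun i => by
    have := ((EuclideanSpace.proj i : E3 →L[ℝ] ℝ).hasFDerivAt.comp p hd.hasFDerivAt).fderiv
    exact (congrArg (fun L : E3 →L[ℝ] ℝ => L v) this).symm
  have c : ∀ i, HasFDerivAt (fun q : E3 => q i) (EuclideanSpace.proj i : E3 →L[ℝ] ℝ) p :=
    fun i => (EuclideanSpace.proj i : E3 →L[ℝ] ℝ).hasFDerivAt
  apply E3_ext <;> rw [key]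
  · have := (((c 2).add_const R).mul ((c 0).const_mul α).cos).fderiv
    change fderiv ℝ ((fun q : E3 => q 2 + R) * fun q : E3 => cos (α * q 0)) p v = _
    rw [this]
    simp
    ring
  · have := (((c 2).add_const R).mul ((c 0).const_mul α).sin).fderiv
    change fderiv ℝ ((fun q : E3 => q 2 + R) * fun q : E3 => sin (α * q 0)) p v = _
    rw [this]
    simp
    ring
  · change fderiv ℝ (fun q : E3 => q 1) p v = _
    rw [(c 1).fderiv]
    rfl

theorem ld_pol {α R : ℝ} (hα : α ≠ 0) : LD E3 (pol α R) {p | 0 < p 2 + R} := by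
  refine ld_model (isOpen_lt continuous_const ((cont_co 2).add continuous_const))
    (contDiff_pol α R).contDiffOn fun p hp => ?_
  rw [injective_iff_map_eq_zero]
  intro v hv
  rw [fderiv_pol] at hv
  have h0 : v 2 * cos (α * p 0) - (p 2 + R) * sin (α * p 0) * (α * v 0) = 0 :=
    congrArg (fun z : E3 => z 0) hv
  have h1 : v 2 * sin (α * p 0) + (p 2 + R) * cos (α * p 0) * (α * v 0) = 0 :=
    congrArg (fun z : E3 => z 1) hv
  have h2 : v 1 = 0 := congrArg (fun z : E3 => z 2) hv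
  have hp' : p 2 + R ≠ 0 := ne_of_gt hp
  have h3 : (p 2 + R) * (α * v 0) = 0 := by
    linear_combination cos (α * p 0) * h1 - sin (α * p 0) * h0 -
      (p 2 + R) * (α * v 0) * cos_sq_add_sin_sq (α * p 0)
  refine E3_ext (by simpa [hp', hα] using h3) h2 ?_
  change v 2 = 0
  linear_combination cos (α * p 0) * h0 + sin (α * p 0) * h1 - v 2 * cos_sq_add_sin_sq (α * p 0)

/-- every point has cylindrical coordinates -/
theorem exists_pol {α : ℝ} (hα : α ≠ 0) (R : ℝ) (z : E3) :
    ∃ p : E3, pol α R p = z ∧ p 2 + R = rad z ∧ |α * p 0| ≤ π := by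
  let w : ℂ := ⟨z 0, z 1⟩
  have hw : ‖w‖ = rad z := by rw [Complex.norm_def, Complex.normSq_mk]; unfold rad; congr 1; ring
  have e : α * (Complex.arg w / α) = Complex.arg w := by field_simp
  refine ⟨!₂[Complex.arg w / α, z 2, rad z - R], ?_, by simp, ?_⟩
  · apply E3_ext
    · change (rad z - R + R) * cos (α * (Complex.arg w / α)) = z 0
      rw [e, sub_add_cancel, ← hw, Complex.norm_mul_cos_arg]
    · change (rad z - R + R) * sin (α * (Complex.arg w / α)) = z 1
      rw [e, sub_add_cancel, ← hw, Complex.norm_mul_sin_arg]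
    · rfl
  · change |α * (Complex.arg w / α)| ≤ π
    rw [e]; exact Complex.abs_arg_le_pi w

/-- the fibres of cylindrical coordinates -/
theorem pol_eq {α R : ℝ} {p q : E3} (hp : 0 < p 2 + R) (hq : 0 < q 2 + R)
    (h : pol α R p = pol α R q) : q 1 = p 1 ∧ q 2 = p 2 ∧ ∃ m : ℤ, α * q 0 = α * p 0 + m * (2 * π) := by
  have h2 : q 2 = p 2 := by
    have := congrArg rad h
    rw [rad_pol hp.le, rad_pol hq.le] at this
    linarith
  have h0 : (p 2 + R) * cos (α * p 0) = (q 2 + R) * cos (α * q 0) := congrArg (fun z : E3 => z 0) h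
  have h1 : (p 2 + R) * sin (α * p 0) = (q 2 + R) * sin (α * q 0) := congrArg (fun z : E3 => z 1) h
  rw [h2] at h0 h1
  have h3 := mul_left_cancel₀ hp.ne' h0
  have h4 := mul_left_cancel₀ hp.ne' h1
  refine ⟨(congrArg (fun z : E3 => z 2) h).symm, h2, ?_⟩
  have h5 : cos (α * q 0 - α * p 0) = 1 := by
    rw [cos_sub, ← h3, ← h4]
    linear_combination cos_sq_add_sin_sq (α * p 0)
  obtain ⟨m, hm⟩ := (cos_eq_one_iff _).1 h5
  exact ⟨m, by linarith⟩

end Vale.Agent.P216FL
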