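import Vale.Agent.P216FL.Ori2
import Vale.Agent.P216C.Plan

/-!
# The orientation API for `P216C.Ori`
-/

open Set Topology Manifold Real Metric
open Filter hiding comap comap_id
open scoped ContDiff

noncomputable section

namespace Vale.Agent.P216C

open Vale.Agent.P216R Vale.Agent.P216SG
open Vale.Agent.P216FL (jac ss_symm ss_trans ss_mul isOri_model jac_comp jac_congr jac_id)

variable {M : Type} [TopologicalSpace M] [ChartedSpace E3 M]
  {N : Type} [TopologicalSpace N] [ChartedSpace E3 N]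

theorem IsOri.mono {o : M → ℝ} {U V : Set M} (h : IsOri o U) (hV : V ⊆ U) : IsOri o V :=
  ⟨fun x hx => h.ne x (hV hx), fun f W h1 h2 => h.loc f W h1 (h2.mono_right hV)⟩

theorem Ori.mono {U V : Set M} (h : Ori U) (hV : V ⊆ U) : Ori V := h.imp fun _ h => h.mono hV

variable [IsManifold 𝓘(ℝ, E3) ∞ M] [IsManifold 𝓘(ℝ, E3) ∞ N]

theorem isOri_of_fl {o : M → ℝ} {U : Set M} (h : P216FL.IsOri E3 o U) : IsOri o U :=
  ⟨h.ne, fun _ _ hf hm v hv => (isOri_model.1 (h.comap hf hm) v hv).mono fun _ hw => ss_symm hw⟩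

theorem IsOri.fl {o : M → ℝ} {U : Set M} (h : IsOri o U) (hU : IsOpen U) :
    P216FL.IsOri E3 o U := by
  refine ⟨h.ne, fun x hx => ?_⟩
  have h1 := h.loc (chartAt E3 x).symm (dom E3 x U)
    ((ld_symm x).mono (isOpen_dom x hU) inter_subset_left) (fun _ hz => hz.2) _ (pt_mem_dom hx)
  rw [symm_pt, md_symm_pt] at h1
  have tc : Tendsto (chartAt E3 x) (𝓝 x) (𝓝 (pt E3 x)) :=
    (chartAt E3 x).continuousAt (mem_chart_source E3 x)
  filter_upwards [tc.eventually h1, (chartAt E3 x).open_source.mem_nhds (mem_chart_source E3 x)]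
    with y hy hy'
  have e : jac E3 (chartAt E3 x).symm (chartAt E3 x y) * jac E3 (chartAt E3 x) y = 1 := by
    rw [← jac_comp (sm_symm ((chartAt E3 x).map_source hy')).md (sm_chart hy').md,
      ← jac_id (E := E3) y]
    refine jac_congr ?_
    filter_upwards [(chartAt E3 x).open_source.mem_nhds hy'] with z hz
    exact (chartAt E3 x).left_inv hz
  have e1 : (ContinuousLinearMap.id ℝ E3).det = 1 := LinearMap.det_id
  rw [(chartAt E3 x).left_inv hy', e1, mul_one] at hy
  exact ss_trans (ss_symm hy) (ss_mul (mul_self_pos.2 fun h0 => by simp [h0] at hy)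
    (e ▸ one_pos : 0 < jac E3 (chartAt E3 x).symm (chartAt E3 x y) * jac E3 (chartAt E3 x) y))

theorem ori_of_fl {U : Set M} (h : P216FL.Ori E3 U) : Ori U := h.imp fun _ => isOri_of_fl

theorem Ori.fl {U : Set M} (h : Ori U) (hU : IsOpen U) : P216FL.Ori E3 U :=
  h.imp fun _ h => h.fl hU

theorem ori_model (V : Set E3) : Ori V := ori_of_fl (P216FL.ori_model V)

theorem Ori.comap {U : Set M} (h : Ori U) (hU : IsOpen U) {f : N → M} {V : Set N}
    (hf : LD E3 f V) (hm : MapsTo f V U) : Ori V := ori_of_fl ((h.fl hU).comap hf hm)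

theorem Ori.image {V : Set N} (h : Ori V) {f : N → M} (hf : LD E3 f V) (hi : InjOn f V) :
    Ori (f '' V) := ori_of_fl ((h.fl hf.isOpen).image hf hi)

theorem Ori.union {U V : Set M} (hU : Ori U) (hUo : IsOpen U) (hV : Ori V) (hVo : IsOpen V)
    (hc : IsPreconnected (U ∩ V)) : Ori (U ∪ V) :=
  ori_of_fl ((hU.fl hUo).union hUo (hV.fl hVo) hVo hc)

/-- deck transformations of a connected parametrisation preserve the orientation -/
theorem Ori.det_pos {U : Set M} (h : Ori U) (hU : IsOpen U) {f : E3 → M} {V : Set E3}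
    (hf : LD E3 f V) (hm : MapsTo f V U) (hV : IsPreconnected V) {τ : E3 → E3} {x : E3}
    (hx : x ∈ V) (hτ : τ x ∈ V) (hd : DifferentiableAt ℝ τ x) (he : f ∘ τ =ᶠ[𝓝 x] f) :
    0 < (fderiv ℝ τ x).det := (h.fl hU).det_pos hf hm hV hx hτ hd he

theorem Ori.not_even {U : Set M} (h : Ori U) (hU : IsOpen U) {f : E3 → M} {a b : ℝ} (ha : 0 ≤ a)
    (hf : LD E3 f (ann a b)) (hm : MapsTo f (ann a b) U) {x : E3} (hx : x ∈ ann a b)
    (he : ∀ᶠ y in 𝓝 x, f (-y) = f y) : False := (h.fl hU).not_even ha hf hm hx he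

/-- capping preserves orientability -/
theorem Ori.cut {U K : Set M} {U' : Set N} {φ : E3 → M} {ψ : E3 → N} {i : M → N} {L : ℝ}
    (ho : Ori U) (h : IsCut U φ L K U' i ψ) (hK : Side U φ L K) (he : Emb φ (anl L) U)
    (hL : 0 < L) : Ori U' :=
  ori_of_fl (P216FL.ori_cut h hK he hL ((ho.mono hK.sub).fl hK.isOpen))

/-- limits of orientable manifolds along an ultrafilter are orientable -/
theorem ori_of_emb {ι : Type} {l : Ultrafilter ι} {Y : ι → Type} [∀ n, TopologicalSpace (Y n)]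
    [∀ n, ChartedSpace E3 (Y n)] [∀ n, IsManifold 𝓘(ℝ, E3) ∞ (Y n)] {U : ∀ n, Set (Y n)}
    {F : ∀ n, M → Y n} {W : Set M} (h : P216U.Emb E3 l U F W)
    (hU : ∀ᶠ n in l, IsOpen (U n) ∧ Ori (U n)) : Ori W :=
  ori_of_fl (P216FL.ori_of_emb h (hU.mono fun _ hn => hn.2.fl hn.1))

end Vale.Agent.P216C
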