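import Vale.Agent.P216FL.Et
import Vale.Agent.P216R.Basic
import Mathlib.Analysis.Calculus.InverseFunctionTheorem.ContDiff

/-!
# Local inverses, images of metrics, descent of tensors to etale quotients
-/

open Set Filter Topology Manifold
open scoped ContDiff

noncomputable section

namespace Vale.Agent.P216FL

open Vale.Agent.P216R

variable {E : Type} [NormedAddCommGroup E] [NormedSpace ℝ E]
  {M : Type} [TopologicalSpace M] [ChartedSpace E M]
  {N : Type} [TopologicalSpace N] [ChartedSpace E N]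

section Inv

variable [FiniteDimensional ℝ E] [IsManifold 𝓘(ℝ, E) ∞ M] [IsManifold 𝓘(ℝ, E) ∞ N]

omit [IsManifold 𝓘(ℝ, E) ∞ M] [IsManifold 𝓘(ℝ, E) ∞ N] in
theorem inv_model {F : E → E} {a : E} (hF : ContDiffAt ℝ ∞ F a)
    (hi : Function.Injective (fderiv ℝ F a)) :
    ∃ s : E → E, ContDiffAt ℝ ∞ s (F a) ∧ (∀ᶠ y in 𝓝 (F a), F (s y) = y) ∧
      ∀ᶠ z in 𝓝 a, s (F z) = z := by
  have : CompleteSpace E := FiniteDimensional.complete ℝ E
  let A : E ≃L[ℝ] E := (LinearEquiv.ofInjectiveEndo (fderiv ℝ F a : E →ₗ[ℝ] E)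
    hi).toContinuousLinearEquiv
  have hA : HasFDerivAt F (A : E →L[ℝ] E) a := by
    have : (A : E →L[ℝ] E) = fderiv ℝ F a := by ext v; rfl
    rw [this]; exact (hF.differentiableAt (by simp)).hasFDerivAt
  have hn : (∞ : WithTop ℕ∞) ≠ 0 := by simp
  exact ⟨hF.localInverse hA hn, hF.to_localInverse hA hn,
    (hF.hasStrictFDerivAt' hA hn).eventually_right_inverse,
    (hF.hasStrictFDerivAt' hA hn).eventually_left_inverse⟩

/-- Inverse function theorem on manifolds. -/
theorem ld_inv {f : N → M} {V : Set N} (h : LD E f V) {x : N} (hx : x ∈ V) :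
    ∃ σ : M → N, σ (f x) = x ∧ SM E σ (f x) ∧ (∀ᶠ y in 𝓝 (f x), f (σ y) = y) ∧
      ∀ᶠ z in 𝓝 x, σ (f z) = z := by
  set c := chartAt E x with hc
  set d := chartAt E (f x) with hd
  let W : Set E := c.target ∩ c.symm ⁻¹' (V ∩ f ⁻¹' d.source)
  have hVo : IsOpen (V ∩ f ⁻¹' d.source) :=
    h.smooth.continuousOn.isOpen_inter_preimage h.isOpen d.open_source
  have hW : IsOpen W := isOpen_dom x hVo
  have hxW : c x ∈ W := mem_dom (mem_chart_source E x) ⟨hx, mem_chart_source E (f x)⟩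
  have h1 : LD E (d ∘ f ∘ c.symm) W :=
    (ld_chart (f x)).comp ((h.mono hVo inter_subset_left).comp
      ((ld_symm x).mono hW inter_subset_left) fun _ hz => hz.2) fun _ hz => hz.2.2
  obtain ⟨s, k1, k2, k3⟩ := inv_model (h1.contDiffOn.contDiffAt (hW.mem_nhds hxW)) (h1.inj' hxW)
  have e1 : (d ∘ f ∘ c.symm) (c x) = d (f x) := by
    simp only [Function.comp, c.left_inv (mem_chart_source E x)]
  rw [e1] at k1 k2
  have e2 : s (d (f x)) = c x := by rw [← e1]; exact k3.self_of_nhds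
  have td : Tendsto d (𝓝 (f x)) (𝓝 (d (f x))) := d.continuousAt (mem_chart_source E (f x))
  have tc : Tendsto c (𝓝 x) (𝓝 (c x)) := c.continuousAt (mem_chart_source E x)
  refine ⟨c.symm ∘ s ∘ d, ?_, ?_, ?_, ?_⟩
  · simp only [Function.comp, e2, c.left_inv (mem_chart_source E x)]
  · have k4 : SM E c.symm ((s ∘ d) (f x)) := by
      apply sm_symm
      simp only [Function.comp, e2]
      exact mem_chart_target E x
    exact k4.comp _ (k1.contMDiffAt.comp _ (sm_chart (mem_chart_source E (f x))))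
  · have k5 : ∀ᶠ y in 𝓝 (d (f x)), s y ∈ W := k1.continuousAt (by rw [e2]; exact hW.mem_nhds hxW)
    filter_upwards [td.eventually k2, td.eventually k5,
      d.open_source.mem_nhds (mem_chart_source E (f x))] with y hy hy' hy''
    exact d.injOn hy'.2.2 hy'' hy
  · filter_upwards [tc.eventually k3, c.open_source.mem_nhds (mem_chart_source E x)] with z hz hz'
    simp only [Function.comp, c.left_inv hz'] at hz ⊢
    rw [hz, c.left_inv hz']

theorem ld_map_nhds {f : N → M} {V : Set N} (h : LD E f V) {x : N} (hx : x ∈ V) :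
    map f (𝓝 x) = 𝓝 (f x) := by
  obtain ⟨σ, k0, k1, k2, -⟩ := ld_inv h hx
  refine le_antisymm (h.continuousAt hx) fun A hA => ?_
  have k3 : ∀ᶠ y in 𝓝 (f x), σ y ∈ f ⁻¹' A := k1.continuousAt (by rw [k0]; exact hA)
  filter_upwards [k2, k3] with y hy hy'
  rw [← hy]; exact hy'

theorem ld_isOpen_image {f : N → M} {V : Set N} (h : LD E f V) {A : Set N} (hA : IsOpen A)
    (hAV : A ⊆ V) : IsOpen (f '' A) := by
  rw [isOpen_iff_mem_nhds]
  rintro _ ⟨x, hx, rfl⟩
  rw [← ld_map_nhds h (hAV hx)]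
  exact image_mem_map (hA.mem_nhds hx)

theorem ld_loc_inj {f : N → M} {V : Set N} (h : LD E f V) {x : N} (hx : x ∈ V) :
    ∃ A ∈ 𝓝 x, InjOn f A := by
  obtain ⟨σ, -, -, -, k⟩ := ld_inv h hx
  refine ⟨_, k, fun a ha b hb hab => ?_⟩
  have ha' : σ (f a) = a := ha
  have hb' : σ (f b) = b := hb
  rw [← ha', hab, hb']

/-- A tensor whose pull back by a local diffeomorphism is a metric is a metric on the image. -/
theorem met_image {f : N → M} {V : Set N} (h : LD E f V) {g : Ten E M}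
    (hg : Met (comap f g) V) : Met g (f '' V) := by
  refine ⟨ld_isOpen_image h h.isOpen Subset.rfl, ?_, ?_, ?_⟩
  · rintro _ ⟨x, hx, rfl⟩ v w
    obtain ⟨v, rfl⟩ := h.surj hx v
    obtain ⟨w, rfl⟩ := h.surj hx w
    exact hg.symm x hx v w
  · rintro _ ⟨x, hx, rfl⟩ v hv
    obtain ⟨v, rfl⟩ := h.surj hx v
    exact hg.pos x hx v fun h0 => hv (by rw [h0, map_zero])
  · rintro a u ⟨hu, x, hx, hxu⟩
    obtain ⟨σ, k0, k1, k2, -⟩ := ld_inv h hx
    rw [hxu] at k0 k1 k2
    have s1 : SM E (σ ∘ (chartAt E a).symm) u := k1.comp u (sm_symm hu)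
    have s0 : (σ ∘ (chartAt E a).symm) u = x := k0
    have s2 : ContDiffAt ℝ ∞ (chartAt E x ∘ σ ∘ (chartAt E a).symm) u :=
      contDiffAt_chart_comp s1 (by rw [s0]; exact mem_chart_source E x)
    have s3 : ContDiffAt ℝ ∞ (co (comap f g) x) ((chartAt E x ∘ σ ∘ (chartAt E a).symm) u) := by
      have : (chartAt E x ∘ σ ∘ (chartAt E a).symm) u = pt E x := congrArg (chartAt E x) s0
      rw [this]
      exact (hg.smooth x).contDiffAt ((isOpen_dom x hg.isOpen).mem_nhds (pt_mem_dom hx))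
    refine ((contDiffAt_comap s3 s2).congr_of_eventuallyEq ?_).contDiffWithinAt
    have s4 : ∀ᶠ z in 𝓝 u, (σ ∘ (chartAt E a).symm) z ∈ V ∩ (chartAt E x).source :=
      s1.continuousAt (by
        rw [s0]; exact (h.isOpen.inter (chartAt E x).open_source).mem_nhds
          ⟨hx, mem_chart_source E x⟩)
    filter_upwards [s4, s1.eventually, ((tendsto_symm hu).eventually k2).eventually_nhds]
      with z hz hz1 hz2
    rw [← comap_eq (comap f g) hz1 hz.2, comap_comp g (h.md hz.1) hz1]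
    exact comap_congr g (hz2.mono fun y hy => hy.symm)

omit [FiniteDimensional ℝ E] [IsManifold 𝓘(ℝ, E) ∞ N] [IsManifold 𝓘(ℝ, E) ∞ M] in
theorem met_union {g : Ten E M} {U V : Set M} (hU : Met g U) (hV : Met g V) : Met g (U ∪ V) := by
  refine ⟨hU.isOpen.union hV.isOpen, fun x hx => hx.elim (hU.symm x) (hV.symm x),
    fun x hx => hx.elim (hU.pos x) (hV.pos x), fun a u hu => ?_⟩
  rcases hu.2 with h | h
  · exact ((hU.smooth a).contDiffAt
      ((isOpen_dom a hU.isOpen).mem_nhds ⟨hu.1, h⟩)).contDiffWithinAt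
  · exact ((hV.smooth a).contDiffAt
      ((isOpen_dom a hV.isOpen).mem_nhds ⟨hu.1, h⟩)).contDiffWithinAt

end Inv

namespace Et

variable (e : Et E N)

/-- Descent of a tensor field. -/
def dn (g : Ten E N) : Ten E e.Q := fun q => g (e.out q)

theorem md_out (q : e.Q) : md E e.pr (e.out q) = ContinuousLinearMap.id ℝ E := e.mfderiv_out q

theorem ld_pr [IsManifold 𝓘(ℝ, E) ∞ N] : LD E e.pr univ := by
  refine ⟨isOpen_univ, e.smooth_pr.contMDiffOn, fun x _ => ?_⟩
  have h1 : md E (e.sec x ∘ e.pr) x = md E (e.sec x) (e.pr x) ∘L md E e.pr x :=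
    md_comp (SM.md (e.smooth_sec (e.mem_sec_source x))) (SM.md (e.smooth_pr x))
  have h2 : md E (e.sec x ∘ e.pr) x = ContinuousLinearMap.id ℝ E := by
    rw [← md_id x]; exact md_congr (e.sec_pr_ev x)
  intro v w hvw
  have h3 := congrArg (md E (e.sec x) (e.pr x)) hvw
  rw [← ContinuousLinearMap.comp_apply, ← ContinuousLinearMap.comp_apply, ← h1, h2] at h3
  exact h3

/-- An invariant tensor is the pull back of its descent. -/
theorem comap_dn {g : Ten E N} {a : N}
    (h : ∀ b, e.s a b → ∃ τ : N → N, τ a = b ∧ SM E τ a ∧ (∀ᶠ x in 𝓝 a, e.s (τ x) x) ∧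
      comap τ g a = g a) : comap e.pr (e.dn g) a = g a := by
  obtain ⟨τ, h1, h2, h3, h4⟩ := h (e.out (e.pr a)) (e.pr_eq.1 (e.pr_out _).symm)
  have h5 : md E e.pr a = md E τ a := e.mfderiv_pr h1 h2 h3
  rw [← h4]
  simp only [P216R.comap, dn, h5, h1]

end Et

end Vale.Agent.P216FL
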