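import Vale.Agent.P216R.Met
import Mathlib.Topology.Algebra.Module.Determinant
import Mathlib.Analysis.Normed.Module.FiniteDimension

/-!
# Orientations of open subsets of manifolds
-/

open Set Topology Manifold
open Filter hiding comap comap_id
open scoped ContDiff

noncomputable section

namespace Vale.Agent.P216FL

open Vale.Agent.P216R

variable {E : Type} [NormedAddCommGroup E] [NormedSpace ℝ E]
  {M : Type} [TopologicalSpace M] [ChartedSpace E M]
  {N : Type} [TopologicalSpace N] [ChartedSpace E N]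
  {P : Type} [TopologicalSpace P] [ChartedSpace E P]

variable (E) in
/-- the Jacobian determinant, in the preferred charts -/
def jac (f : N → M) (x : N) : ℝ := (md E f x).det

variable (E) in
/-- the sign of `o` is an orientation of `U` -/
structure IsOri (o : M → ℝ) (U : Set M) : Prop where
  ne : ∀ x ∈ U, o x ≠ 0
  loc : ∀ x ∈ U, ∀ᶠ y in 𝓝 x, 0 < o x * (o y * jac E (chartAt E x) y)

variable (E) in
/-- `U` is orientable -/
def Ori (U : Set M) : Prop := ∃ o : M → ℝ, IsOri E o U

theorem ss_trans {a b c : ℝ} (h : 0 < a * b) (h' : 0 < b * c) : 0 < a * c := by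
  have hb : b ≠ 0 := fun e => by simp [e] at h
  have h1 : 0 < a * c * (b * b) := by nlinarith [mul_pos h h']
  exact (mul_pos_iff_of_pos_right (mul_self_pos.2 hb)).1 h1

theorem ss_symm {a b : ℝ} (h : 0 < a * b) : 0 < b * a := by rwa [mul_comm]

theorem ss_mul {a b c d : ℝ} (h : 0 < a * b) (h' : 0 < c * d) : 0 < a * c * (b * d) := by
  nlinarith [mul_pos h h']

theorem ss_cancel {a b c d : ℝ} (h : 0 < a * c * (b * d)) (h' : 0 < c * d) : 0 < a * b := by
  have : 0 < a * b * (c * d) := by nlinarith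
  exact (mul_pos_iff_of_pos_right h').1 this

theorem jac_model (f : E → E) (x : E) : jac E f x = (fderiv ℝ f x).det := by rw [jac, md_model]

theorem jac_id (x : M) : jac E (id : M → M) x = 1 := by
  rw [jac, md_id]; exact LinearMap.det_id

theorem jac_congr {f f' : N → M} {x : N} (h : f =ᶠ[𝓝 x] f') : jac E f x = jac E f' x := by
  rw [jac, md_congr h, jac]

theorem jac_comp {f : N → M} {k : P → N} {x : P} (hf : MD E f (k x)) (hk : MD E k x) :
    jac E (f ∘ k) x = jac E f (k x) * jac E k x := by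
  rw [jac, md_comp hf hk]
  exact LinearMap.det_comp _ _

theorem jac_ne [FiniteDimensional ℝ E] {f : N → M} {x : N} (h : Function.Injective (md E f x)) :
    jac E f x ≠ 0 := fun e => by
  have := LinearMap.bot_lt_ker_of_det_eq_zero (f := (md E f x : E →ₗ[ℝ] E)) e
  rw [LinearMap.ker_eq_bot.2 h] at this
  exact lt_irrefl _ this

theorem IsOri.mono {o : M → ℝ} {U V : Set M} (h : IsOri E o U) (hV : V ⊆ U) : IsOri E o V :=
  ⟨fun x hx => h.ne x (hV hx), fun x hx => h.loc x (hV hx)⟩

theorem Ori.mono {U V : Set M} (h : Ori E U) (hV : V ⊆ U) : Ori E V :=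
  h.imp fun _ h => h.mono hV

theorem IsOri.neg {o : M → ℝ} {U : Set M} (h : IsOri E o U) : IsOri E (fun x => -o x) U :=
  ⟨fun x hx => neg_ne_zero.2 (h.ne x hx), fun x hx => (h.loc x hx).mono fun y hy => by
    simpa using hy⟩

theorem IsOri.congr {o o' : M → ℝ} {U : Set M} (h : IsOri E o U) (hU : IsOpen U)
    (he : ∀ x ∈ U, 0 < o x * o' x) : IsOri E o' U := by
  refine ⟨fun x hx e => by simpa [e] using he x hx, fun x hx => ?_⟩
  filter_upwards [h.loc x hx, hU.mem_nhds hx] with y hy hy'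
  have hj : jac E (chartAt E x) y ≠ 0 := fun e => by simp [e] at hy
  exact ss_trans (ss_symm (he x hx)) (ss_trans hy (ss_mul (he y hy') (mul_self_pos.2 hj)))

theorem isOri_of_local {o : M → ℝ} {U : Set M} (h : ∀ x ∈ U, ∃ V, x ∈ V ∧ IsOri E o V) :
    IsOri E o U :=
  ⟨fun x hx => let ⟨_, h1, h2⟩ := h x hx; h2.ne x h1,
    fun x hx => let ⟨_, h1, h2⟩ := h x hx; h2.loc x h1⟩

theorem isOri_model {o : E → ℝ} {V : Set E} :
    IsOri E o V ↔ ∀ x ∈ V, ∀ᶠ y in 𝓝 x, 0 < o x * o y := by
  have e : ∀ x y : E, jac E (chartAt E x) y = 1 := fun _ y => jac_id y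
  refine ⟨fun h x hx => by simpa only [e, mul_one] using h.loc x hx, fun h => ⟨fun x hx e => ?_,
    fun x hx => by simpa only [e, mul_one] using h x hx⟩⟩
  simpa [e] using (h x hx).self_of_nhds

theorem isOri_one (V : Set E) : IsOri E (fun _ => (1 : ℝ)) V :=
  isOri_model.2 fun _ _ => Eventually.of_forall fun _ => by simp

/-- two orientations of a connected set agree everywhere or nowhere -/
theorem IsOri.same {o o' : M → ℝ} {U : Set M} (h : IsOri E o U) (h' : IsOri E o' U)
    (hU : IsPreconnected U) {x y : M} (hx : x ∈ U) (hy : y ∈ U) :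
    0 < o x * o' x * (o y * o' y) := by
  refine hU.induction₂' (fun x y => 0 < o x * o' x * (o y * o' y)) (fun x hx => ?_)
    (fun _ _ _ _ _ _ => ss_trans) hx hy
  filter_upwards [nhdsWithin_le_nhds (h.loc x hx), nhdsWithin_le_nhds (h'.loc x hx)] with y a b
  have hj : jac E (chartAt E x) y ≠ 0 := fun e => by simp [e] at a
  have h1 : 0 < o x * o' x * (o y * o' y) := by
    have := ss_mul a b
    refine (mul_pos_iff_of_pos_right (mul_self_pos.2 hj)).1 ?_
    nlinarith
  exact ⟨h1, ss_symm h1⟩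

theorem IsOri.exists_agree {o : M → ℝ} {U V : Set M} (h : IsOri E o U) (hV : Ori E V)
    (hc : IsPreconnected (U ∩ V)) : ∃ o', IsOri E o' V ∧ ∀ x ∈ U ∩ V, 0 < o x * o' x := by
  obtain ⟨o', h'⟩ := hV
  by_cases hh : ∀ x ∈ U ∩ V, 0 < o x * o' x
  · exact ⟨o', h', hh⟩
  push Not at hh
  obtain ⟨x, hx, hx'⟩ := hh
  refine ⟨_, h'.neg, fun y hy => ?_⟩
  have := (h.mono inter_subset_left).same (h'.mono inter_subset_right) hc hx hy
  by_contra h0
  nlinarith

/-- gluing pairwise disjoint orientable sets to an orientable set along connected overlaps -/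
theorem Ori.union_family {J : Type} {K : Set M} {T : J → Set M} (hK : Ori E K) (hKo : IsOpen K)
    (hT : ∀ j, Ori E (T j)) (hTo : ∀ j, IsOpen (T j))
    (hd : ∀ j k, ∀ x ∈ T j, x ∈ T k → j = k) (hc : ∀ j, IsPreconnected (K ∩ T j)) :
    Ori E (K ∪ ⋃ j, T j) := by
  classical
  obtain ⟨o, ho⟩ := hK
  choose w hw hw' using fun j => ho.exists_agree (hT j) (hc j)
  refine ⟨fun x => if x ∈ K then o x else if h : ∃ j, x ∈ T j then w h.choose x else 1,
    isOri_of_local ?_⟩
  rintro x (hx | hx)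
  · exact ⟨K, hx, ho.congr hKo fun y hy => by simpa [hy] using ho.ne y hy⟩
  · obtain ⟨j, hx⟩ := mem_iUnion.1 hx
    refine ⟨T j, hx, (hw j).congr (hTo j) fun y hy => ?_⟩
    by_cases h1 : y ∈ K
    · rw [if_pos h1]; exact ss_symm (hw' j y ⟨h1, hy⟩)
    · have h2 : ∃ j, y ∈ T j := ⟨j, hy⟩
      rw [if_neg h1, dif_pos h2, hd _ _ y h2.choose_spec hy]
      exact mul_self_pos.2 ((hw j).ne y hy)

theorem Ori.union {U V : Set M} (hU : Ori E U) (hUo : IsOpen U) (hV : Ori E V) (hVo : IsOpen V)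
    (hc : IsPreconnected (U ∩ V)) : Ori E (U ∪ V) := by
  have := hU.union_family (T := fun _ : Unit => V) hUo (fun _ => hV) (fun _ => hVo)
    (fun _ _ _ _ _ => rfl) fun _ => hc
  rwa [iUnion_const] at this

variable [FiniteDimensional ℝ E] [IsManifold 𝓘(ℝ, E) ∞ M] [IsManifold 𝓘(ℝ, E) ∞ N]

theorem IsOri.comap_at {o : M → ℝ} {U : Set M} (h : IsOri E o U) {f : N → M} {x : N}
    (hf : SM E f x) (hi : Function.Injective (md E f x)) (hx : f x ∈ U) :
    ∀ᶠ y in 𝓝 x, 0 < o (f x) * jac E f x * (o (f y) * jac E f y * jac E (chartAt E x) y) := by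
  set c := chartAt E x with hc
  set d := chartAt E (f x) with hd
  have s0 : (f ∘ c.symm) (pt E x) = f x := congrArg f (symm_pt x)
  have s1 : SM E (f ∘ c.symm) (pt E x) :=
    ContMDiffAt.comp _ (by rw [symm_pt]; exact hf) (sm_symm (pt_mem x))
  have s2 : ContDiffAt ℝ ∞ (d ∘ f ∘ c.symm) (pt E x) :=
    contDiffAt_chart_comp s1 (by rw [s0]; exact mem_chart_source E _)
  have s3 : ContinuousAt (fun z => jac E (d ∘ f ∘ c.symm) z) (pt E x) := by
    simp only [jac_model]
    exact ContinuousLinearMap.continuous_det.continuousAt.comp (s2.continuousAt_fderiv (by simp))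
  have key : ∀ᶠ y in 𝓝 x, jac E (d ∘ f ∘ c.symm) (c y) * jac E c y = jac E d (f y) * jac E f y := by
    have tc : Tendsto c (𝓝 x) (𝓝 (pt E x)) := c.continuousAt (mem_chart_source E x)
    filter_upwards [tc.eventually (SM.eventually s2.contMDiffAt), hf.eventually,
      hf.continuousAt (d.open_source.mem_nhds (mem_chart_source E _)),
      c.open_source.mem_nhds (mem_chart_source E x)] with y h1 h2 h3 h4
    rw [← jac_comp h1 (sm_chart h4).md, ← jac_comp (sm_chart h3).md h2]
    refine jac_congr ?_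
    filter_upwards [c.open_source.mem_nhds h4] with z hz
    simp only [Function.comp, c.left_inv hz, hd]
  have j1 : jac E c x = 1 := by rw [jac, md_chart_self]; exact LinearMap.det_id
  have j2 : jac E d (f x) = 1 := by rw [jac, md_chart_self]; exact LinearMap.det_id
  have s4 : jac E (d ∘ f ∘ c.symm) (pt E x) = jac E f x := by
    have := key.self_of_nhds
    rwa [j1, j2, mul_one, one_mul] at this
  have s5 : ∀ᶠ z in 𝓝 (pt E x), 0 < jac E f x * jac E (d ∘ f ∘ c.symm) z :=
    (continuousAt_const.mul s3).eventually (lt_mem_nhds (by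
      change 0 < jac E f x * jac E (d ∘ f ∘ c.symm) (pt E x)
      rw [s4]; exact mul_self_pos.2 (jac_ne hi)))
  filter_upwards [key, (c.continuousAt (mem_chart_source E x)).eventually s5,
    hf.continuousAt.eventually (h.loc _ hx), c.open_source.mem_nhds (mem_chart_source E x)]
    with y h1 h2 h3 h4
  have hC : jac E c y ≠ 0 := jac_ne ((ld_chart x).inj y h4)
  have hD : jac E d (f y) ≠ 0 := fun e => by simp [← hd, e] at h3
  refine (mul_pos_iff_of_pos_right (mul_self_pos.2 hD)).1 ?_
  have h5 := mul_pos (mul_pos h3 h2) (mul_self_pos.2 hC)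
  rw [← hd] at h5
  refine h5.trans_eq ?_
  linear_combination (o (f x) * o (f y) * jac E d (f y) * jac E f x * jac E c y) * h1

/-- pull back of an orientation -/
theorem IsOri.comap {o : M → ℝ} {U : Set M} (h : IsOri E o U) {f : N → M} {V : Set N}
    (hf : LD E f V) (hm : MapsTo f V U) : IsOri E (fun y => o (f y) * jac E f y) V :=
  ⟨fun x hx => mul_ne_zero (h.ne _ (hm hx)) (jac_ne (hf.inj x hx)),
    fun x hx => h.comap_at (hf.sm hx) (hf.inj x hx) (hm hx)⟩

theorem Ori.comap {U : Set M} (h : Ori E U) {f : N → M} {V : Set N} (hf : LD E f V)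
    (hm : MapsTo f V U) : Ori E V := let ⟨_, h⟩ := h; ⟨_, h.comap hf hm⟩

/-- a parametrisation of a connected set is positive or negative -/
theorem IsOri.sign_param {o : M → ℝ} {U : Set M} (h : IsOri E o U) {f : E → M} {V : Set E}
    (hf : LD E f V) (hm : MapsTo f V U) (hV : IsPreconnected V) {x y : E} (hx : x ∈ V)
    (hy : y ∈ V) : 0 < o (f x) * jac E f x * (o (f y) * jac E f y) := by
  simpa using (h.comap hf hm).same (isOri_one V) hV hx hy

/-- deck transformations of a connected parametrisation preserve the orientation -/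
theorem Ori.det_pos {U : Set M} (h : Ori E U) {f : E → M} {V : Set E} (hf : LD E f V)
    (hm : MapsTo f V U) (hV : IsPreconnected V) {τ : E → E} {x : E} (hx : x ∈ V) (hτ : τ x ∈ V)
    (hd : DifferentiableAt ℝ τ x) (he : f ∘ τ =ᶠ[𝓝 x] f) : 0 < (fderiv ℝ τ x).det := by
  obtain ⟨o, h⟩ := h
  have h1 := h.sign_param hf hm hV hx hτ
  rw [← jac_congr he, jac_comp (hf.md hτ) hd.mdifferentiableAt, jac_model τ,
    ← show f (τ x) = f x from he.self_of_nhds] at h1
  have h2 := mul_self_pos.2 ((h.comap hf hm).ne _ hτ)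
  refine (mul_pos_iff_of_pos_right h2).1 ?_
  nlinarith

/-- push forward of an orientation -/
theorem IsOri.image {o : N → ℝ} {V : Set N} (h : IsOri E o V) {f : N → M} (hf : LD E f V)
    (hc : ∀ x ∈ V, ∀ y ∈ V, f x = f y → 0 < o x * jac E f x * (o y * jac E f y)) :
    ∃ o', IsOri E o' (f '' V) ∧ ∀ x ∈ V, 0 < o' (f x) * (o x * jac E f x) := by
  classical
  let o' : M → ℝ := fun q => if h : q ∈ f '' V then o h.choose * jac E f h.choose else 1
  have h1 : ∀ x ∈ V, 0 < o' (f x) * (o x * jac E f x) := fun x hx => by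
    have h2 : f x ∈ f '' V := ⟨x, hx, rfl⟩
    simp only [o', dif_pos h2]
    exact hc _ h2.choose_spec.1 x hx h2.choose_spec.2
  refine ⟨o', ⟨?_, ?_⟩, h1⟩
  · rintro _ ⟨x, hx, rfl⟩ e
    simpa [e] using h1 x hx
  rintro _ ⟨x, hx, rfl⟩
  obtain ⟨σ, k1, k2, k3⟩ := exists_inv (hf.sm hx) (hf.inj x hx)
  have k0 : σ (f x) = x := k2.self_of_nhds
  have k4 : ∀ᶠ y in 𝓝 (f x), σ y ∈ V := k1.continuousAt (by rw [k0]; exact hf.isOpen.mem_nhds hx)
  have k5 : ∀ᶠ y in 𝓝 (f x), 0 < o' y * (o (σ y) * jac E σ y) ∧ jac E σ y ≠ 0 := by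
    filter_upwards [k4, k3.eventually_nhds, k1.eventually] with y a b c
    have d : jac E f (σ y) * jac E σ y = 1 := by
      rw [← jac_comp (hf.md a) c, ← jac_id (E := E) y]
      exact jac_congr b
    have e := h1 _ a
    rw [show f (σ y) = y from b.self_of_nhds] at e
    exact ⟨ss_trans e (ss_mul (mul_self_pos.2 (h.ne _ a)) (by rw [d]; exact one_pos)),
      right_ne_zero_of_mul_eq_one d⟩
  have k6 : Function.Injective (md E σ (f x)) := by
    have := (LinearMap.isUnit_iff_isUnit_det (md E σ (f x) : E →ₗ[ℝ] E)).2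
      (Ne.isUnit k5.self_of_nhds.2)
    exact LinearMap.ker_eq_bot.1 ((LinearMap.isUnit_iff_ker_eq_bot _).1 this)
  filter_upwards [k5, h.comap_at k1 k6 (by rw [k0]; exact hx)] with y a b
  have hj : jac E (chartAt E (f x)) y ≠ 0 := fun e => by simp [e] at b
  exact ss_trans k5.self_of_nhds.1 (ss_trans b (ss_mul (ss_symm a.1) (mul_self_pos.2 hj)))

theorem Ori.image {V : Set N} (h : Ori E V) {f : N → M} (hf : LD E f V) (hi : InjOn f V) :
    Ori E (f '' V) := by
  obtain ⟨o, h⟩ := h
  obtain ⟨o', h', -⟩ := h.image hf fun x hx y hy e => by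
    rw [hi hx hy e]
    exact mul_self_pos.2 (mul_ne_zero (h.ne y hy) (jac_ne (hf.inj y hy)))
  exact ⟨o', h'⟩

omit [IsManifold 𝓘(ℝ, E) ∞ N] in
theorem isOri_chart (a : M) : IsOri E (jac E (chartAt E a)) (chartAt E a).source := by
  simpa using (isOri_one univ).comap (ld_chart a) (mapsTo_univ _ _)

/-- a set that is locally embedded in orientable sets along an ultrafilter is orientable -/
theorem ori_of_ultrafilter {ι : Type} (l : Ultrafilter ι) {X : ι → Type}
    [∀ n, TopologicalSpace (X n)] [∀ n, ChartedSpace E (X n)] [∀ n, IsManifold 𝓘(ℝ, E) ∞ (X n)]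
    {U : ∀ n, Set (X n)} {F : ∀ n, M → X n} {W : Set M} (hU : ∀ᶠ n in l, Ori E (U n))
    (hF : ∀ x ∈ W, ∃ V, x ∈ V ∧ ∀ᶠ n in l, LD E (F n) V ∧ MapsTo (F n) V (U n)) : Ori E W := by
  classical
  let o : ∀ n, X n → ℝ := fun n => Classical.epsilon fun o => IsOri E o (U n)
  have ho : ∀ᶠ n in l, IsOri E (o n) (U n) := hU.mono fun n hn => Classical.epsilon_spec hn
  let w : M → ℝ := fun x => if ∀ᶠ n in l, 0 < o n (F n x) * jac E (F n) x then 1 else -1
  have hw : ∀ x, (∀ᶠ n in l, o n (F n x) * jac E (F n) x ≠ 0) →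
      ∀ᶠ n in l, 0 < w x * (o n (F n x) * jac E (F n) x) := fun x hx => by
    by_cases h : ∀ᶠ n in l, 0 < o n (F n x) * jac E (F n) x
    · simpa only [w, if_pos h, one_mul] using h
    · simp only [w, if_neg h]
      filter_upwards [Ultrafilter.eventually_not.2 h, hx] with n a b
      have := lt_of_le_of_ne (not_lt.1 a) b
      linarith
  refine ⟨w, fun x _ => by simp only [w]; split_ifs <;> simp, fun x hx => ?_⟩
  obtain ⟨V, h1, h2⟩ := hF x hx
  have h3 : ∀ᶠ n in l, IsOri E (fun y => o n (F n y) * jac E (F n) y) V := by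
    filter_upwards [h2, ho] with n a b using b.comap a.1 a.2
  have : LocallyConnectedSpace M := ChartedSpace.locallyConnectedSpace E M
  obtain ⟨A, hA, hA1, hA2⟩ := (locallyConnectedSpace_iff_subsets_isOpen_isConnected.1 this) x
    (V ∩ (chartAt E x).source) ((h2.exists.choose_spec.1.isOpen.inter
      (chartAt E x).open_source).mem_nhds ⟨h1, mem_chart_source E x⟩)
  filter_upwards [hA1.mem_nhds hA2.1] with y hy
  obtain ⟨n, ⟨a, b⟩, c⟩ := (((hw x (h3.mono fun n hn => hn.ne x h1)).and
    (hw y (h3.mono fun n hn => hn.ne y (hA hy).1))).and h3).exists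
  have d := (c.mono (hA.trans inter_subset_left)).same
    ((isOri_chart x).mono (hA.trans inter_subset_right)) hA2.2.isPreconnected hA2.1 hy
  have j1 : jac E (chartAt E x) x = 1 := by rw [jac, md_chart_self]; exact LinearMap.det_id
  rw [j1, mul_one] at d
  have hj : jac E (chartAt E x) y ≠ 0 := fun e => by simp [e] at d
  exact ss_trans a (ss_trans d (ss_mul (ss_symm b) (mul_self_pos.2 hj)))

end Vale.Agent.P216FL
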