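import Vale.Agent.P216FL.Fill
import Vale.Agent.P216R.Met

/-!
# Topology of a filled manifold: open, Hausdorff, compact, connected; the glued metric
-/

open Set Topology Manifold Real
open Filter hiding comap comap_id
open scoped ContDiff

noncomputable section

namespace Vale.Agent.P216FL

open Vale.Agent.P216R
open Vale.Agent.P216FI (ka scr slab isOpen_slab)

variable {M : Type} [TopologicalSpace M] [ChartedSpace E3 M]
  {M' : Type} [TopologicalSpace M'] [ChartedSpace E3 M'] {J : Type}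

theorem isCompact_box (a b c d e f : ℝ) :
    IsCompact {p : E3 | p 0 ∈ Icc a b ∧ p 1 ∈ Icc c d ∧ p 2 ∈ Icc e f} := by
  have h := ((isCompact_Icc (a := a) (b := b)).prod ((isCompact_Icc (a := c) (b := d)).prod
    (isCompact_Icc (a := e) (b := f)))).image
    (f := fun q : ℝ × ℝ × ℝ => (!₂[q.1, q.2.1, q.2.2] : E3)) (by fun_prop)
  convert h using 1
  ext p
  constructor
  · intro hp
    exact ⟨(p 0, p 1, p 2), hp, E3_ext rfl rfl rfl⟩
  · rintro ⟨q, hq, rfl⟩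
    exact hq

theorem exists_int_mem (x : ℝ) {v : ℝ} (hv : 0 < v) : ∃ n : ℤ, x + n * v ∈ Ico 0 v := by
  refine ⟨-toIcoDiv hv 0 x, ?_⟩
  have := sub_toIcoDiv_zsmul_mem_Ico hv 0 x
  rw [zsmul_eq_mul, zero_add] at this
  rw [Int.cast_neg, neg_mul, ← sub_eq_add_neg]
  exact this

omit [ChartedSpace E3 M] in
theorem Hs.eventually_notMem {U C : Set M} (hU : Hs U) (hC : IsCompact C) (hCU : C ⊆ U) {x : M}
    (hx : x ∈ U) (hxC : x ∉ C) : ∀ᶠ y in 𝓝 x, y ∉ C := by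
  have h : Disjoint (𝓝ˢ C) (𝓝 x) := hC.disjoint_nhdsSet_left.2 fun c hc =>
    hU (hCU hc) hx fun e => hxC (e ▸ hc)
  obtain ⟨s, hs, t, ht, hst⟩ := Filter.disjoint_iff.1 h
  filter_upwards [ht] with y hy hyC
  exact Set.disjoint_left.1 hst (subset_of_mem_nhdsSet hs hyC) hy

section Col

variable {ψ : E3 → M} {l u v a b : ℝ}

theorem Col.image_box (h : Col ψ l u v a b) {I : Set ℝ} (hI : I ⊆ Ioo a b) :
    ψ '' slab I = ψ '' {p | p 0 ∈ Ico 0 l ∧ p 1 ∈ Ico 0 v ∧ p 2 ∈ I} := by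
  refine Subset.antisymm ?_ (image_mono fun _ hp => hp.2.2)
  rintro _ ⟨p, hp, rfl⟩
  obtain ⟨n, hn⟩ := exists_int_mem (p 1) h.vpos
  obtain ⟨m, hm⟩ := exists_int_mem (p 0 + n * u) h.lpos
  refine ⟨sh (m * l + n * u) (n * v) p, ⟨?_, hn, hp⟩, h.per (hI hp) m n⟩
  convert hm using 1
  rw [sh_0]; ring

theorem Col.isCompact (h : Col ψ l u v a b) {c d : ℝ} (hc : a < c) (hd : d < b) :
    IsCompact (ψ '' slab (Icc c d)) := by
  have hI : Icc c d ⊆ Ioo a b := Icc_subset_Ioo hc hd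
  have h1 : IsCompact (ψ '' {p | p 0 ∈ Icc 0 l ∧ p 1 ∈ Icc 0 v ∧ p 2 ∈ Icc c d}) :=
    (isCompact_box _ _ _ _ _ _).image_of_continuousOn
      (h.ld.smooth.continuousOn.mono fun _ hp => hI hp.2.2)
  convert h1 using 1
  refine Subset.antisymm ?_ (image_mono fun _ hp => hp.2.2)
  rw [h.image_box hI]
  exact image_mono fun _ hp => ⟨Ico_subset_Icc_self hp.1, Ico_subset_Icc_self hp.2.1, hp.2.2⟩

theorem Col.isOpen [IsManifold 𝓘(ℝ, E3) ∞ M] (h : Col ψ l u v a b) {c d : ℝ} (hc : a ≤ c)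
    (hd : d ≤ b) : IsOpen (ψ '' slab (Ioo c d)) :=
  h.ld.isOpen_image (isOpen_slab isOpen_Ioo) fun _ hp => Ioo_subset_Ioo hc hd hp

/-- points on the upper side of the torus at height zero stay away from it -/
theorem Col.avoid [IsManifold 𝓘(ℝ, E3) ∞ M] (h : Col ψ l u v a b) (ha : a < 0) (hb : 0 < b)
    {U : Set M} (hU : Hs U) (hm : MapsTo ψ (slab (Ioo a b)) U) {x : M} (hx : x ∈ U)
    (hp : ∀ p ∈ slab (Ioo a b), ψ p = x → 0 < p 2) :
    ∃ ε > 0, ∀ᶠ y in 𝓝 x, y ∉ ψ '' slab (Ioo 0 ε) := by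
  by_cases h1 : x ∈ ψ '' slab (Ioo a b)
  · obtain ⟨p, hp1, rfl⟩ := h1
    have h2 := hp p hp1 rfl
    refine ⟨p 2 / 2, by linarith, ?_⟩
    filter_upwards [(h.isOpen (c := p 2 / 2) (by linarith) le_rfl).mem_nhds
      ⟨p, ⟨by linarith, hp1.2⟩, rfl⟩]
    rintro _ ⟨q, hq, rfl⟩ ⟨r, hr, e⟩
    have := h.height (p := r) (q := q) ⟨by linarith [hr.1], by linarith [hr.2, hp1.2]⟩
      ⟨by linarith [hq.1], hq.2⟩ e
    linarith [hq.1, hr.2]
  · have hI : Icc 0 (b / 2) ⊆ Ioo a b := Icc_subset_Ioo ha (by linarith)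
    refine ⟨b / 2, by linarith, ?_⟩
    filter_upwards [Hs.eventually_notMem hU (h.isCompact ha (d := b / 2) (by linarith))
      (by rintro _ ⟨p, hp, rfl⟩; exact hm (hI hp)) hx fun ⟨p, hp, e⟩ => h1 ⟨p, hI hp, e⟩] with y hy
    exact fun ⟨p, hp, e⟩ => hy ⟨p, Ioo_subset_Icc_self hp, e⟩

end Col

theorem met_of_cover {E : Type} [NormedAddCommGroup E] [NormedSpace ℝ E] {M : Type}
    [TopologicalSpace M] [ChartedSpace E M] {g : Ten E M} {U : Set M}
    (h : ∀ x ∈ U, ∃ V, x ∈ V ∧ V ⊆ U ∧ Met g V) : Met g U := by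
  refine ⟨isOpen_iff_forall_mem_open.2 fun x hx => ?_, fun x hx => ?_, fun x hx => ?_,
    fun a u hu => ?_⟩
  · obtain ⟨V, h1, h2, h3⟩ := h x hx
    exact ⟨V, h2, h3.isOpen, h1⟩
  · obtain ⟨V, h1, -, h3⟩ := h x hx
    exact h3.symm x h1
  · obtain ⟨V, h1, -, h3⟩ := h x hx
    exact h3.pos x h1
  · obtain ⟨V, h1, -, h3⟩ := h _ hu.2
    exact ((h3.smooth a).contDiffAt
      ((isOpen_dom a h3.isOpen).mem_nhds ⟨hu.1, h1⟩)).contDiffWithinAt

theorem isClosed_scw (θ : ℝ) {v : ℝ} (hv : 0 < v) :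
    IsClosed {p : E3 × E3 | ∃ n : ℤ, scw (n * θ) (n * v) p.1 = p.2} := by
  rw [ofPred_exists]
  refine LocallyFinite.isClosed_iUnion (fun p => ?_) fun n =>
    isClosed_eq ((contDiff_scw _ _).continuous.comp continuous_fst) continuous_snd
  have hc : Continuous fun q : E3 × E3 => |q.2 2 - q.1 2| / v := by fun_prop
  refine ⟨{q | |q.2 2 - q.1 2| / v < |p.2 2 - p.1 2| / v + 1},
    (isOpen_lt hc continuous_const).mem_nhds (lt_add_one (|p.2 2 - p.1 2| / v)), ?_⟩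
  obtain ⟨N, hN⟩ := exists_int_gt (|p.2 2 - p.1 2| / v + 1)
  refine (finite_Ioo (-N) N).subset ?_
  rintro n ⟨q, h1, h2⟩
  have h3 : q.1 2 + n * v = q.2 2 := congrArg (fun w : E3 => w 2) h1
  have h4 : |q.2 2 - q.1 2| / v = |(n : ℝ)| := by
    rw [← h3, add_sub_cancel_left, abs_mul, abs_of_pos hv, mul_div_cancel_right₀ _ hv.ne']
  have h5 : |(n : ℝ)| < N := by rw [← h4]; exact lt_trans h2 hN
  exact abs_lt.1 (by exact_mod_cast h5)

namespace IsFill

variable {ψ : J → E3 → M} {l u v b R : J → ℝ} {K : Set M} {U' : Set M'} {i : M → M'}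
  {Φ : J → E3 → M'} (h : IsFill ψ l u v b R K U' i Φ)
include h

theorem per_int (j : J) (n : ℤ) (z : E3) :
    Φ j (scw (n * (2 * π / l j * u j)) (n * v j) z) = Φ j z := by
  have h1 := h.per j
  rw [scr_eq] at h1
  induction n using Int.induction_on with
  | zero => simp [scw_zero]
  | succ n ih =>
    rw [← ih, ← h1 (scw (((n : ℤ) : ℝ) * _) _ z), scw_scw]
    congr 2 <;> push_cast <;> ring
  | pred n ih =>
    rw [← ih, ← h1, scw_scw]
    congr 2 <;> push_cast <;> ring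

theorem rad_eq {j k : J} {z w : E3} (e : Φ j z = Φ k w) : rad z = rad w := by
  obtain ⟨-, n, rfl⟩ := h.fib j k z w e
  rw [scr_eq, rad_scw]

/-- the outer part of the tube is the collar -/
theorem shell {j : J} (hl : 0 < l j) {z : E3} (h1 : R j < rad z) (h2 : rad z < b j + R j) :
    ∃ p ∈ slab (Ioo 0 (b j)), p 2 + R j = rad z ∧ ka (2 * π / l j) (R j) p = z ∧
      Φ j z = i (ψ j p) := by
  obtain ⟨p, e1, e2, -⟩ := exists_pol (α := 2 * π / l j) (by positivity) (R j) z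
  have hp : p ∈ slab (Ioo 0 (b j)) := ⟨by linarith, by linarith⟩
  rw [← ka_eq] at e1
  exact ⟨p, hp, e2, e1, by rw [← h.eq j p hp, e1]⟩

variable (hl : ∀ j, 0 < l j) (hK : ∀ j, MapsTo (ψ j) (slab (Ioo 0 (b j))) K)
include hl hK

theorem mem {j : J} {z : E3} (hz : rad z < b j + R j) : Φ j z ∈ U' := by
  rw [h.cover]
  rcases le_or_gt (rad z) (R j) with h1 | h1
  · exact Or.inr (mem_iUnion.2 ⟨j, z, h1, rfl⟩)
  · obtain ⟨p, hp, -, -, e⟩ := h.shell (hl j) h1 hz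
    exact Or.inl ⟨_, hK j hp, e.symm⟩

theorem cover' (hb : ∀ j, 0 < b j) : U' = i '' K ∪ ⋃ j, Φ j '' {z | rad z < b j + R j} := by
  refine Subset.antisymm ?_ (union_subset (h.cover ▸ subset_union_left) (iUnion_subset fun j => ?_))
  · rw [h.cover]
    exact union_subset_union_right _ (iUnion_mono fun j => image_mono fun z hz =>
      lt_of_le_of_lt hz (lt_add_of_pos_left _ (hb j)))
  · rintro _ ⟨z, hz, rfl⟩
    exact h.mem hl hK hz

theorem isCompact [Finite J] (hv : ∀ j, 0 < v j) (hR : ∀ j, 0 ≤ R j) {c : J → ℝ}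
    (h0 : ∀ j, 0 ≤ c j) (hc : ∀ j, c j < b j)
    (hk : IsCompact (K \ ⋃ j, ψ j '' slab (Ioo 0 (c j)))) : IsCompact U' := by
  have h1 : ∀ j, IsCompact {z : E3 | rad z ≤ c j + R j ∧ z 2 ∈ Icc 0 (v j)} := fun j => by
    refine (isCompact_box (-(c j + R j)) (c j + R j) (-(c j + R j)) (c j + R j) 0
      (v j)).of_isClosed_subset ((isClosed_le continuous_rad continuous_const).inter
        (isClosed_Icc.preimage (cont_co 2))) fun z hz => ⟨?_, ?_, hz.2⟩
    · exact abs_le.1 ((abs_le_sqrt (by nlinarith [sq_nonneg (z 1)])).trans hz.1)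
    · exact abs_le.1 ((abs_le_sqrt (by nlinarith [sq_nonneg (z 0)])).trans hz.1)
  have h2 : ∀ j z, rad z ≤ c j + R j →
      Φ j z ∈ ⋃ j, Φ j '' {z : E3 | rad z ≤ c j + R j ∧ z 2 ∈ Icc 0 (v j)} := fun j z hz => by
    obtain ⟨n, hn⟩ := exists_int_mem (z 2) (hv j)
    exact mem_iUnion.2 ⟨j, _, ⟨by rwa [rad_scw], Ico_subset_Icc_self hn⟩, h.per_int j n z⟩
  convert (hk.image h.emb.continuous).union (isCompact_iUnion fun j => (h1 j).image
    (continuousOn_univ.1 (h.tube j).smooth.continuousOn)) using 1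
  refine Subset.antisymm ?_ (union_subset ((image_mono sdiff_subset).trans
    (h.cover ▸ subset_union_left)) (iUnion_subset fun j => ?_))
  · rw [h.cover]
    rintro _ (⟨x, hx, rfl⟩ | hx)
    · by_cases hx' : x ∈ ⋃ j, ψ j '' slab (Ioo 0 (c j))
      · obtain ⟨j, p, hp, rfl⟩ := mem_iUnion.1 hx'
        rw [← h.eq j p ⟨hp.1, hp.2.trans (hc j)⟩, ka_eq]
        refine Or.inr (h2 j _ ?_)
        rw [rad_pol (by linarith [hp.1, hR j])]
        linarith [hp.2]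
      · exact Or.inl ⟨x, ⟨hx, hx'⟩, rfl⟩
    · obtain ⟨j, z, hz, rfl⟩ := mem_iUnion.1 hx
      exact Or.inr (h2 j z (le_trans hz (le_add_of_nonneg_left (h0 j))))
  · rintro _ ⟨z, hz, rfl⟩
    exact h.mem hl hK (by linarith [hz.1, hc j])

theorem isPreconnected (hb : ∀ j, 0 < b j) (hR : ∀ j, 0 ≤ R j) (hk : IsPreconnected K) :
    IsPreconnected U' := by
  have h0 : IsPreconnected (i '' K) := hk.image _ h.emb.continuous.continuousOn
  have h1 : ∀ j, ∀ z, rad z < b j + R j →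
      ∃ t ⊆ U', i '' K ⊆ t ∧ Φ j z ∈ t ∧ IsPreconnected t ∧ (i '' K).Nonempty := fun j z hz => by
    obtain ⟨p, e1, e2, -⟩ := exists_pol (α := 2 * π / l j) (by have := hl j; positivity) (R j) z
    let f : ℝ → M' := fun s => Φ j (pol (2 * π / l j) (R j) !₂[p 0, p 1, s])
    have hf : Continuous f := (continuousOn_univ.1 (h.tube j).smooth.continuousOn).comp
      ((contDiff_pol _ _).continuous.comp (by fun_prop))
    have hq : (!₂[p 0, p 1, b j / 2] : E3) ∈ slab (Ioo 0 (b j)) :=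
      ⟨half_pos (hb j), half_lt_self (hb j)⟩
    have h2 : f (b j / 2) ∈ i '' K := ⟨_, hK j hq, by rw [← h.eq j _ hq, ka_eq]⟩
    refine ⟨i '' K ∪ f '' Ico (-R j) (b j), union_subset (h.cover ▸ subset_union_left) ?_,
      subset_union_left, Or.inr ⟨p 2, ⟨by linarith [rad_nonneg z], by linarith⟩, ?_⟩,
      h0.union (f (b j / 2)) h2 ⟨_, ⟨by linarith [hR j, hb j], half_lt_self (hb j)⟩, rfl⟩
        (isPreconnected_Ico.image f hf.continuousOn), _, h2⟩
    · rintro _ ⟨s, hs, rfl⟩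
      refine h.mem hl hK ?_
      rw [rad_pol (show 0 ≤ s + R j by linarith [hs.1])]
      exact add_lt_add_left hs.2 _
    · rw [← e1]
      exact congrArg (fun q => Φ j (pol _ _ q)) (E3_ext rfl rfl rfl)
  have h3 : ∀ y ∈ U', ∃ t ⊆ U', i '' K ⊆ t ∧ y ∈ t ∧ IsPreconnected t ∧ (i '' K).Nonempty := by
    intro y hy
    rw [h.cover' hl hK hb] at hy
    rcases hy with hy | hy
    · exact ⟨_, h.cover ▸ subset_union_left, Subset.rfl, hy, h0, y, hy⟩
    · obtain ⟨j, z, hz, rfl⟩ := mem_iUnion.1 hy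
      exact h1 j z hz
  refine isPreconnected_of_forall_pair fun x hx y hy => ?_
  obtain ⟨s, a1, a2, a3, a4, w, hw⟩ := h3 x hx
  obtain ⟨t, b1, b2, b3, b4, -⟩ := h3 y hy
  exact ⟨s ∪ t, union_subset a1 b1, Or.inl a3, Or.inr b3, a4.union w (a2 hw) (b2 hw) b4⟩

variable [IsManifold 𝓘(ℝ, E3) ∞ M']

theorem isOpen (hb : ∀ j, 0 < b j) (hk : IsOpen K) : IsOpen U' := by
  rw [h.cover' hl hK hb]
  exact (h.emb.isOpenMap _ hk).union (isOpen_iUnion fun j => (h.tube j).isOpen_image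
    (isOpen_lt continuous_rad continuous_const) (subset_univ _))

theorem met [IsManifold 𝓘(ℝ, E3) ∞ M] (hb : ∀ j, 0 < b j) {g : Ten E3 M'}
    (h1 : Met (comap i g) K) (h2 : ∀ j, Met (comap (Φ j) g) {z | rad z < b j + R j}) :
    Met g U' := by
  rw [h.cover' hl hK hb]
  refine met_of_cover ?_
  rintro x (hx | hx)
  · exact ⟨_, hx, subset_union_left, met_image (h.ld.mono h1.isOpen (subset_univ _)) h1⟩
  · obtain ⟨j, hx⟩ := mem_iUnion.1 hx
    exact ⟨_, hx, (subset_iUnion (fun j => Φ j '' {z | rad z < b j + R j}) j).trans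
      subset_union_right, met_image ((h.tube j).mono (h2 j).isOpen (subset_univ _)) (h2 j)⟩

omit hK in
theorem hs (hv : ∀ j, 0 < v j) (hk : Hs K)
    (ha : ∀ x ∈ K, ∀ j, ∃ ε > 0, ∀ᶠ y in 𝓝 x, y ∉ ψ j '' slab (Ioo 0 ε)) : Hs U' := by
  have key : ∀ x ∈ K, ∀ j z, rad z ≤ R j → Disjoint (𝓝 (i x)) (𝓝 (Φ j z)) := by
    intro x hx j z hz
    obtain ⟨ε, h1, h2⟩ := ha x hx j
    rw [← h.emb.map_nhds_eq, ← (h.tube j).map_nhds (mem_univ z), Filter.disjoint_iff]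
    refine ⟨_, image_mem_map h2, _, image_mem_map ((isOpen_lt continuous_rad
      (continuous_const (y := ε + R j))).mem_nhds (show rad z < ε + R j by linarith)),
      Set.disjoint_left.2 ?_⟩
    rintro _ ⟨y, hy, rfl⟩ ⟨w, hw, e⟩
    obtain ⟨h3, h4⟩ := h.new j w ⟨y, e.symm⟩
    obtain ⟨p, hp, e2, -, e3⟩ := h.shell (hl j) h3 h4
    have hw' : rad w < ε + R j := hw
    exact hy ⟨p, ⟨hp.1, by linarith⟩, h.emb.injective (e3.symm.trans e)⟩
  rw [h.cover]
  rintro x (⟨x, hx, rfl⟩ | hx) y (⟨y, hy, rfl⟩ | hy) hne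
  · rw [← h.emb.map_nhds_eq, ← h.emb.map_nhds_eq, disjoint_map h.emb.injective]
    exact hk hx hy fun e => hne (congrArg _ e)
  · obtain ⟨j, z, hz, rfl⟩ := mem_iUnion.1 hy
    exact key x hx j z hz
  · obtain ⟨j, z, hz, rfl⟩ := mem_iUnion.1 hx
    exact (key y hy j z hz).symm
  · obtain ⟨j, z, -, rfl⟩ := mem_iUnion.1 hx
    obtain ⟨k, w, -, rfl⟩ := mem_iUnion.1 hy
    rw [← (h.tube j).map_nhds (mem_univ z), ← (h.tube k).map_nhds (mem_univ w), Filter.disjoint_iff]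
    by_cases hjk : j = k
    · subst hjk
      have h1 := (isClosed_scw (2 * π / l j * u j) (hv j)).isOpen_compl.mem_nhds (x := (z, w))
        (fun ⟨n, e⟩ => hne ((h.per_int j n z).symm.trans (congrArg (Φ j) e)))
      rw [nhds_prod_eq] at h1
      obtain ⟨s, hs, t, ht, hst⟩ := mem_prod_iff.1 h1
      refine ⟨_, image_mem_map hs, _, image_mem_map ht, Set.disjoint_left.2 ?_⟩
      rintro _ ⟨z', hz', rfl⟩ ⟨w', hw', e⟩
      have h2 := (h.fib j j z' w' e.symm).2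
      rw [scr_eq] at h2
      exact hst (mk_mem_prod hz' hw') h2
    · refine ⟨_, image_mem_map univ_mem, _, image_mem_map univ_mem, Set.disjoint_left.2 ?_⟩
      rintro _ ⟨z', -, rfl⟩ ⟨w', -, e⟩
      exact hjk (h.fib j k z' w' e.symm).1

end IsFill

end Vale.Agent.P216FL
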