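import Vale.Agent.P216FL.Ori
import Vale.Agent.P216FL.FillTop
import Vale.Agent.P216SG.Cut
import Vale.Agent.P216U.Conv

/-!
# Orientability of capped manifolds, filled manifolds and limits
-/

open Set Topology Manifold Real Metric
open Filter hiding comap comap_id
open scoped ContDiff

noncomputable section

namespace Vale.Agent.P216FL

open Vale.Agent.P216R Vale.Agent.P216SG
open Vale.Agent.P216FI (ka scr slab isOpen_slab)

variable {M : Type} [TopologicalSpace M] [ChartedSpace E3 M] [IsManifold 𝓘(ℝ, E3) ∞ M]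
  {M' : Type} [TopologicalSpace M'] [ChartedSpace E3 M'] [IsManifold 𝓘(ℝ, E3) ∞ M'] {J : Type}

theorem ori_model {E : Type} [NormedAddCommGroup E] [NormedSpace ℝ E] (V : Set E) : Ori E V :=
  ⟨_, isOri_one V⟩

/-- capping preserves orientability -/
theorem ori_cut {U K : Set M} {U' : Set M'} {φ : E3 → M} {ψ : E3 → M'} {i : M → M'} {L : ℝ}
    (h : IsCut U φ L K U' i ψ) (hK : Side U φ L K) (he : Emb φ (anl L) U) (hL : 0 < L)
    (ho : Ori E3 K) : Ori E3 U' := by
  have h1 : LD E3 i K := h.ld.mono hK.isOpen hK.sub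
  rw [h.cover' hL]
  refine (ho.image h1 (h.inj.mono hK.sub)).union (h1.isOpen_image hK.isOpen Subset.rfl)
    ((ori_model _).image h.cap.ld h.cap.inj) (h.cap.isOpen_image isOpen_ball Subset.rfl) ?_
  convert h.cap.preconn (preconn_ann (a := 1) (b := exp L) zero_le_one) ann_sub_ball using 1
  refine Subset.antisymm ?_ ?_
  · rintro _ ⟨⟨p, hp, rfl⟩, y, hy, e⟩
    exact ⟨y, ⟨((h.eq_iff he hL hy (hK.sub hp)).1 e).1, mem_ball_zero_iff.1 hy⟩, e⟩
  · rintro _ ⟨y, hy, rfl⟩
    exact ⟨⟨_, hK.out hL.le hy, (h.eq y hy).symm⟩, y, ann_sub_ball hy, rfl⟩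

theorem jac_scw_pos (θ t : ℝ) (z : E3) : 0 < jac E3 (scw θ t) z := by
  have h1 : scw θ t = scw (θ / 2) (t / 2) ∘ scw (θ / 2) (t / 2) := by
    funext w
    simp only [Function.comp, scw_scw, add_halves]
  have h2 : ∀ w, jac E3 (scw (θ / 2) (t / 2)) w = jac E3 (scw (θ / 2) (t / 2)) z := fun w => by
    rw [jac_model, jac_model, ← scr_eq]
    congr 1
    ext1 v
    rw [P216FI.fderiv_scr, P216FI.fderiv_scr]
  rw [h1, jac_comp ((ld_scw _ _).md (mem_univ _)) ((ld_scw _ _).md (mem_univ _)), h2]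
  exact mul_self_pos.2 (jac_ne ((ld_scw _ _).inj z (mem_univ _)))

theorem isPreconnected_slab (a b : ℝ) : IsPreconnected (slab (Ioo a b)) :=
  ((convex_Ioo a b).is_linear_preimage
    (EuclideanSpace.proj 2 : E3 →L[ℝ] ℝ).toLinearMap.isLinear).isPreconnected

/-- filling preserves orientability -/
theorem IsFill.ori {ψ : J → E3 → M} {l u v b R : J → ℝ} {K : Set M} {U' : Set M'} {i : M → M'}
    {Φ : J → E3 → M'} (h : IsFill ψ l u v b R K U' i Φ) (hl : ∀ j, 0 < l j)
    (hK : ∀ j, MapsTo (ψ j) (slab (Ioo 0 (b j))) K) (hb : ∀ j, 0 < b j) (hR : ∀ j, 0 ≤ R j)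
    (hk : IsOpen K) (ho : Ori E3 K) : Ori E3 U' := by
  have hC : ∀ j, IsOpen {z | rad z < b j + R j} := fun j =>
    isOpen_lt continuous_rad continuous_const
  rw [h.cover' hl hK hb]
  refine (ho.image (h.ld.mono hk (subset_univ _)) h.emb.injective.injOn).union_family
    (h.emb.isOpenMap _ hk) (fun j => ?_)
    (fun j => (h.tube j).isOpen_image (hC j) (subset_univ _)) ?_ fun j => ?_
  · obtain ⟨o, h1, -⟩ := (isOri_one {z | rad z < b j + R j}).image
      ((h.tube j).mono (hC j) (subset_univ _)) fun z _ w _ e => by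
        obtain ⟨-, n, rfl⟩ := h.fib j j z w e
        rw [scr_eq, one_mul, one_mul]
        have h2 : jac E3 (Φ j) z = jac E3 (Φ j ∘ scw (n * (2 * π / l j * u j)) (n * v j)) z :=
          jac_congr (Eventually.of_forall fun w => (h.per_int j n w).symm)
        rw [h2, jac_comp ((h.tube j).md (mem_univ _)) ((ld_scw _ _).md (mem_univ _)),
          mul_right_comm]
        exact mul_pos (mul_self_pos.2 (jac_ne ((h.tube j).inj _ (mem_univ _)))) (jac_scw_pos _ _ _)
    exact ⟨o, h1⟩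
  · rintro j k _ ⟨z, -, rfl⟩ ⟨w, -, e⟩
    exact (h.fib j k z w e.symm).1
  · have h1 : ContinuousOn (fun p => Φ j (ka (2 * π / l j) (R j) p)) (slab (Ioo 0 (b j))) :=
      ((continuousOn_univ.1 (h.tube j).smooth.continuousOn).comp
        (P216FI.contDiff_ka _ _).continuous).continuousOn
    convert (isPreconnected_slab 0 (b j)).image _ h1 using 1
    refine Subset.antisymm ?_ ?_
    · rintro _ ⟨⟨x, -, e⟩, z, hz, rfl⟩
      obtain ⟨p, hp, -, e1, -⟩ := h.shell (hl j) (h.new j z ⟨x, e⟩).1 hz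
      exact ⟨p, hp, congrArg (Φ j) e1⟩
    · rintro _ ⟨p, hp, rfl⟩
      refine ⟨⟨_, hK j hp, (h.eq j p hp).symm⟩, _, ?_, rfl⟩
      change rad _ < _
      rw [ka_eq, rad_pol (by linarith [hp.1, hR j])]
      exact add_lt_add_left hp.2 _

/-- limits of orientable manifolds along an ultrafilter are orientable -/
theorem ori_of_emb {ι E : Type} [NormedAddCommGroup E] [NormedSpace ℝ E] [FiniteDimensional ℝ E]
    {l : Ultrafilter ι} {Y : ι → Type} [∀ n, TopologicalSpace (Y n)] [∀ n, ChartedSpace E (Y n)]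
    [∀ n, IsManifold 𝓘(ℝ, E) ∞ (Y n)] {X : Type} [TopologicalSpace X] [ChartedSpace E X]
    [IsManifold 𝓘(ℝ, E) ∞ X] {U : ∀ n, Set (Y n)} {F : ∀ n, X → Y n} {W : Set X}
    (h : P216U.Emb E l U F W) (hU : ∀ᶠ n in l, Ori E (U n)) : Ori E W :=
  ori_of_ultrafilter l hU fun x hx => by
    obtain ⟨V, h1, -, h2⟩ := h {x} isCompact_singleton (singleton_subset_iff.2 hx)
    exact ⟨V, h1 rfl, h2.mono fun n hn => ⟨hn.1, hn.2.2⟩⟩

/-- an orientable manifold has no parametrisation by `E3 ∖ 0` invariant under the antipode -/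
theorem Ori.not_even {U : Set M} (h : Ori E3 U) {f : E3 → M} {a b : ℝ} (ha : 0 ≤ a)
    (hf : LD E3 f (ann a b)) (hm : MapsTo f (ann a b) U) {x : E3} (hx : x ∈ ann a b)
    (he : ∀ᶠ y in 𝓝 x, f (-y) = f y) : False := by
  have h1 := h.det_pos hf hm (preconn_ann ha) (τ := fun y => -y) hx
    (by simpa only [ann, mem_ofPred_eq, norm_neg] using hx) differentiableAt_id.neg he
  have h2 : fderiv ℝ (fun y : E3 => -y) x = (-1 : ℝ) • ContinuousLinearMap.id ℝ E3 := by
    refine (hasFDerivAt_id x).fun_neg.fderiv.trans ?_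
    exact (neg_one_smul ℝ _).symm
  rw [h2, ContinuousLinearMap.det, ContinuousLinearMap.toLinearMap_smul, LinearMap.det_smul,
    finrank_euclideanSpace_fin, ContinuousLinearMap.coe_id, LinearMap.det_id] at h1
  norm_num at h1

end Vale.Agent.P216FL
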