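import Vale.Agent.P216FL.Keep
import Vale.Agent.P216FL.OriC
import Vale.Agent.P216R.Nat
import Vale.Agent.P216FI.FillV

/-!
# Dehn filling along a cusp torus: `TorGoal → FILL`
-/

open Set Topology Manifold Real MeasureTheory
open Filter hiding comap comap_id
open scoped ContDiff

noncomputable section

namespace Vale.Agent.P216FL

open Vale.Agent.P216R Vale.Agent.P216C
open Vale.Agent.P216FI (ka scr slab isOpen_slab cusp tube Prof)
open Vale.Agent.P216T (InC KeepT SepT TorGoal reb flipT)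

/-- curvature and volume of the tube metric -/
def TubeFacts : Prop :=
  ∀ (α s R : ℝ) (u v : ℝ → ℝ), Prof α s R u v → 0 < α → (∀ z, -6 ≤ scG (tube u v) z) ∧
    ∀ c > 0, vol (tube u v) {z | rad z ≤ R ∧ z 2 ∈ Ico 0 c} ≤
      ENNReal.ofReal (2 * π / α * c * ∫ t in (0 : ℝ)..R, α * t * exp (u t + v t))

variable {M : Type} [TopologicalSpace M] [ChartedSpace E3 M] [IsManifold 𝓘(ℝ, E3) ∞ M]

theorem fill_core (H : TubeFacts) {G : Type} [Group G] {U K W : Set M} {g : Ten E3 M}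
    {ψ : E3 → M} {l u v a b s R : ℝ} {p q : ℝ → ℝ} (hU : Mem (Cl G) U) (hg : Met g U)
    (hc : Col ψ l u v a b) (ha : a < 0) (hb : 0 < b) (hm : MapsTo ψ (slab (Ioo a b)) U)
    (hψ : ∀ z ∈ slab (Ioo 0 b), comap ψ g z = cusp s z) (hK : IsOpen K) (hW : IsOpen W)
    (hd : Disjoint K W) (he : U = K ∪ W ∪ ψ '' slab {0}) (h0 : ∀ z ∈ slab {0}, ψ z ∉ K)
    (h1 : MapsTo ψ (slab (Ioo 0 b)) K) (h2 : MapsTo ψ (slab (Ioo a 0)) W)
    (hp : Prof (2 * π / l) s R p q) (x₀ : U)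
    (hk : KeepT G (fun z : (ℝ × ℝ) × ℝ => cor x₀ (ψ !₂[z.1.1 * l + z.1.2 * u, z.1.2 * v, z.2]))
      0 b (Subtype.val ⁻¹' K)) :
    ∃ (M' : Type) (_ : TopologicalSpace M') (_ : ChartedSpace E3 M')
      (_ : IsManifold 𝓘(ℝ, E3) ∞ M') (_ : MeasurableSpace M') (_ : BorelSpace M') (U' : Set M')
      (g' : Ten E3 M') (i : M → M') (T : Set M'), Mem (Cl G) U' ∧ Met g' U' ∧
      LD E3 i K ∧ InjOn i K ∧ (∀ x ∈ K, comap i g' x = g x) ∧
      U' = i '' K ∪ T ∧ Disjoint (i '' K) T ∧ T.Nonempty ∧ (∀ y ∈ T, -6 ≤ Sc g' y) ∧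
      vol g' T ≤ ENNReal.ofReal (l * v * ∫ t in (0 : ℝ)..R, 2 * π / l * t * exp (p t + q t)) := by
  have hl := hc.lpos
  have hα : 0 < 2 * π / l := by positivity
  have hKU : K ⊆ U := he ▸ subset_union_left.trans subset_union_left
  obtain ⟨M', _, _, _, U', i, Φ, h, hten⟩ := exists_fill (J := Unit) (ψ := fun _ => ψ)
    (l := fun _ => l) (u := fun _ => u) (v := fun _ => v) (b := fun _ => b) (R := fun _ => R)
    (fun _ => hc.mono ha.le le_rfl) (fun _ => hp.R_pos.le) (fun _ _ _ _ _ _ _ => rfl) K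
  obtain ⟨g', e1, e2⟩ := hten g (fun _ => tube p q) (fun _ => P216FI.comap_scr_tube p q)
    fun _ z hz => by rw [hψ z hz, hp.comap_ka hα hz.1.le]
  have hS : Met (tube p q) univ := met_model.2 hp.isMetricOn
  have k1 : ∀ z ∈ slab (Ioo a b), ψ z ∈ K → 0 < z 2 := fun z hz hzK => by
    rcases lt_trichotomy (z 2) 0 with h3 | h3 | h3
    · exact absurd (h2 ⟨hz.1, h3⟩) (Set.disjoint_left.1 hd hzK)
    · exact absurd hzK (h0 z h3)
    · exact h3
  have hs : Hs U' := h.hs (fun _ => hl) (fun _ => hc.vpos) (hU.hs.mono hKU) fun x hx _ =>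
    hc.avoid ha hb hU.hs hm (hKU hx) fun z hz e => k1 z hz (e ▸ hx)
  have hin : InC G U' := h.inC hl hc.vpos hb hp.R_pos h1 hU.isOpen hK hKU hs x₀ hk
  have hmet : Met g' U' := h.met (fun _ => hl) (fun _ => h1) (fun _ => hb)
    (by rw [e1]; exact hg.mono hK hKU) fun j => by
      rw [e2]; exact hS.mono (isOpen_lt continuous_rad continuous_const) (subset_univ _)
  have hcpt : IsCompact U' := by
    refine h.isCompact (fun _ => hl) (fun _ => h1) (fun _ => hc.vpos) (fun _ => hp.R_pos.le)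
      (c := fun _ => b / 2) (fun _ => by linarith) (fun _ => by linarith) ?_
    rw [iUnion_const]
    convert hU.cpt.diff (hW.union (hc.isOpen (c := a) (d := b / 2) le_rfl (by linarith))) using 1
    ext x
    constructor
    · rintro ⟨h3, h4⟩
      refine ⟨hKU h3, ?_⟩
      rintro (h5 | ⟨z, hz, rfl⟩)
      · exact Set.disjoint_left.1 hd h3 h5
      · exact h4 ⟨z, ⟨k1 z ⟨hz.1, by linarith [hz.2]⟩ h3, hz.2⟩, rfl⟩
    · rintro ⟨h3, h4⟩
      refine ⟨?_, fun ⟨z, hz, e⟩ => h4 (Or.inr ⟨z, ⟨ha.trans hz.1, hz.2⟩, e⟩)⟩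
      rw [he] at h3
      rcases h3 with (h5 | h5) | ⟨z, hz, e⟩
      · exact h5
      · exact absurd (Or.inl h5) h4
      · have hz' : z 2 = 0 := hz
        exact absurd (Or.inr ⟨z, ⟨by rw [hz']; exact ha, by rw [hz']; linarith⟩, e⟩) h4
  have hori : P216C.Ori U' := ori_of_fl (h.ori (fun _ => hl) (fun _ => h1) (fun _ => hb)
    (fun _ => hp.R_pos.le) hK ((hU.cls.2.mono hKU).fl hK))
  have hcov : U' = i '' K ∪ Φ () '' {z | rad z ≤ R} :=
    h.cover.trans (congrArg _ (iUnion_const (ι := Unit) (Φ () '' {z | rad z ≤ R})))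
  borelize M'
  refine ⟨M', inferInstance, inferInstance, inferInstance, inferInstance, inferInstance, U', g', i,
    Φ () '' {z | rad z ≤ R}, ⟨⟨hin, hori⟩, hmet.isOpen, hcpt, hs, ?_⟩, hmet,
    h.ld.mono hK (subset_univ _), h.emb.injective.injOn, fun x _ => by rw [e1], hcov, ?_,
    ⟨_, 0, by simpa [rad] using hp.R_pos.le, rfl⟩, ?_, ?_⟩
  · exact isPreconnected_iff_preconnectedSpace.2 hin.conn.toPreconnectedSpace
  · rw [Set.disjoint_left]
    rintro _ ⟨x, -, rfl⟩ ⟨z, hz, e⟩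
    exact absurd (h.new () z ⟨x, e.symm⟩).1 (not_lt.2 hz)
  · rintro _ ⟨z, hz, rfl⟩
    rw [← (li_comap hmet (h.tube ()) (mem_univ z)
      (hcov ▸ Or.inr ⟨z, hz, rfl⟩)).Sc, e2, Sc_model]
    exact (H _ _ _ _ _ hp hα).1 z
  · have h3 : Φ () '' {z | rad z ≤ R} = Φ () '' {z | rad z ≤ R ∧ z 2 ∈ Ico 0 v} := by
      refine Subset.antisymm ?_ (image_mono fun _ hz => hz.1)
      rintro _ ⟨z, hz, rfl⟩
      obtain ⟨n, hn⟩ := exists_int_mem (z 2) hc.vpos
      exact ⟨_, ⟨by rwa [rad_scw], hn⟩, h.per_int () n z⟩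
    have h4 := (H _ _ _ _ _ hp hα).2 v hc.vpos
    rw [show 2 * π / (2 * π / l) = l by field_simp] at h4
    rw [h3]
    refine (vol_image_le g' (h.tube ()) isLindelof_univ Subset.rfl ?_ (subset_univ _)).trans ?_
    · exact (isClosed_le continuous_rad continuous_const).measurableSet.inter
        (measurableSet_Ico.preimage (cont_co 2).measurable)
    · rw [e2]; exact h4

/-- a horizontal isometry, possibly reversing the height -/
def iso (c d σ τ : ℝ) (p : E3) : E3 := !₂[c * p 0 - σ * d * p 1, d * p 0 + σ * c * p 1, τ * p 2]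

section iso

variable {c d σ τ : ℝ} (h : c ^ 2 + d ^ 2 = 1) (hσ : σ ^ 2 = 1) (hτ : τ ^ 2 = 1)

theorem contDiff_iso (c d σ τ : ℝ) : ContDiff ℝ ∞ (iso c d σ τ) :=
  contDiff_mk ((contDiff_const.mul (contDiff_co 0)).sub (contDiff_const.mul (contDiff_co 1)))
    ((contDiff_const.mul (contDiff_co 0)).add (contDiff_const.mul (contDiff_co 1)))
    (contDiff_const.mul (contDiff_co 2))

theorem fderiv_iso (c d σ τ : ℝ) (p v : E3) : fderiv ℝ (iso c d σ τ) p v = iso c d σ τ v := by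
  let L : E3 →L[ℝ] E3 := LinearMap.toContinuousLinearMap
    { toFun := iso c d σ τ
      map_add' := fun x y => by apply E3_ext <;> simp [iso] <;> ring
      map_smul' := fun r x => by apply E3_ext <;> simp [iso] <;> ring }
  exact congrArg (fun A : E3 →L[ℝ] E3 => A v) (L.fderiv (x := p))

theorem iso_sh (c d σ τ x y : ℝ) (p : E3) :
    iso c d σ τ (sh x y p) = sh (c * x - σ * d * y) (d * x + σ * c * y) (iso c d σ τ p) := by
  apply E3_ext <;> simp [iso] <;> ring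

include h hσ hτ

theorem iso_iso (p : E3) : iso c (-σ * d) σ τ (iso c d σ τ p) = p ∧
    iso c d σ τ (iso c (-σ * d) σ τ p) = p := by
  constructor <;> apply E3_ext <;> simp only [iso, PiLp.toLp_apply, Matrix.cons_val_zero,
    Matrix.cons_val_one, Matrix.cons_val]
  · linear_combination p 0 * h + (d ^ 2 * p 0 + σ * c * d * p 1) * hσ
  · linear_combination p 1 * h + (c ^ 2 + d ^ 2) * p 1 * hσ
  · linear_combination p 2 * hτ
  · linear_combination p 0 * h + (d ^ 2 * p 0) * hσ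
  · linear_combination p 1 * h + (c ^ 2 * p 1 + d ^ 2 * p 1 - c * d * p 0) * hσ
  · linear_combination p 2 * hτ

theorem ld_iso : LD E3 (iso c d σ τ) univ :=
  ld_of_left_inv isOpen_univ (contDiff_iso _ _ _ _).contMDiff.contMDiffOn
    (k := iso c (-σ * d) σ τ) (fun _ _ => SM.md (contDiff_iso _ _ _ _).contMDiff.contMDiffAt)
    fun p _ => (iso_iso h hσ hτ p).1

theorem comap_iso (p : E3) : comap (iso c d σ τ) (cusp (-1)) p = cusp (-τ) p := by
  ext1 v
  ext1 w
  rw [comap_model, fderiv_iso, fderiv_iso, cusp, cusp, P216FI.wm_apply, P216FI.wm_apply]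
  simp only [iso, PiLp.toLp_apply, Matrix.cons_val_zero, Matrix.cons_val_one, Matrix.cons_val]
  rw [show (-1 : ℝ) * (τ * p 2) = -τ * p 2 by ring]
  linear_combination exp (2 * (-τ * p 2)) * (v 0 * w 0 + v 1 * w 1) * h +
    exp (2 * (-τ * p 2)) * (c ^ 2 + d ^ 2) * (v 1 * w 1) * hσ + v 2 * w 2 * hτ

end iso

/-- normal form of a lattice basis -/
theorem exists_frame {μ ν : ℝ × ℝ} (h : 0 < ar μ ν) : ∃ c d σ l u v : ℝ, c ^ 2 + d ^ 2 = 1 ∧
    σ ^ 2 = 1 ∧ 0 < l ∧ 0 < v ∧ l * v = ar μ ν ∧ c * l = μ.1 ∧ d * l = μ.2 ∧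
    c * u - σ * d * v = ν.1 ∧ d * u + σ * c * v = ν.2 := by
  set D := μ.1 * ν.2 - μ.2 * ν.1 with hD
  have hD0 : D ≠ 0 := abs_pos.1 h
  have h1 : 0 < μ.1 ^ 2 + μ.2 ^ 2 := by
    by_contra h2
    have h3 : μ.1 = 0 := by nlinarith [sq_nonneg μ.1, sq_nonneg μ.2]
    have h4 : μ.2 = 0 := by nlinarith [sq_nonneg μ.1, sq_nonneg μ.2]
    exact hD0 (by rw [hD, h3, h4]; ring)
  set l := √(μ.1 ^ 2 + μ.2 ^ 2)
  have hl : 0 < l := sqrt_pos.2 h1
  have hl2 : l ^ 2 = μ.1 ^ 2 + μ.2 ^ 2 := sq_sqrt h1.le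
  have ha : |D| ≠ 0 := abs_ne_zero.2 hD0
  refine ⟨μ.1 / l, μ.2 / l, D / |D|, l, (μ.1 * ν.1 + μ.2 * ν.2) / l, |D| / l, ?_, ?_, hl,
    div_pos h hl, ?_, ?_, ?_, ?_, ?_⟩
  · field_simp; exact hl2.symm
  · rw [div_pow, sq_abs, div_self (pow_ne_zero 2 hD0)]
  · rw [mul_div_cancel₀ _ hl.ne']; rfl
  · field_simp
  · field_simp
  · field_simp; rw [hl2, hD]; ring
  · field_simp; rw [hl2, hD]; ring

theorem ar_reb (a b : ℝ × ℝ) {p q r s : ℤ} (h : p * s - q * r = 1) :
    ar (p * a.1 + q * b.1, p * a.2 + q * b.2) (r * a.1 + s * b.1, r * a.2 + s * b.2) = ar a b := by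
  have h' : (p : ℝ) * s - q * r = 1 := by exact_mod_cast h
  unfold ar
  congr 1
  linear_combination (a.1 * b.2 - a.2 * b.1) * h'

omit [IsManifold 𝓘(ℝ, E3) ∞ M] in
/-- the collar in coordinates adapted to the slope -/
theorem col_of {g : Ten E3 M} {U : Set M} {ψ : E3 → M} {a b : ℝ × ℝ} {x y x' y' τ : ℝ}
    (h : Cusp g U ψ a b (Ioo x y)) {p q r s : ℤ} (hd : p * s - q * r = 1) (hτ : τ ^ 2 = 1)
    (hx : ∀ t ∈ Ioo x' y', τ * t ∈ Ioo x y) :
    ∃ c d σ l u v : ℝ, l * v = ar a b ∧ Col (ψ ∘ iso c d σ τ) l u v x' y' ∧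
      (∀ z ∈ slab (Ioo x' y'), comap (ψ ∘ iso c d σ τ) g z = cusp (-τ) z) ∧
      (∀ z, ∃ w, iso c d σ τ w = z) ∧
      ∀ z : (ℝ × ℝ) × ℝ, iso c d σ τ !₂[z.1.1 * l + z.1.2 * u, z.1.2 * v, z.2] =
        lat a b ((p * z.1.1 + r * z.1.2, q * z.1.1 + s * z.1.2), τ * z.2) := by
  obtain ⟨c, d, σ, l, u, v, h1, h2, h3, h4, h5, h6, h7, h8, h9⟩ :=
    exists_frame ((ar_reb a b hd).symm ▸ h.pos)
  rw [ar_reb a b hd] at h5
  dsimp only at h6 h7 h8 h9
  have hm : MapsTo (iso c d σ τ) (slab (Ioo x' y')) (slab (Ioo x y)) := fun z hz => hx _ hz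
  have hld := (ld_iso h1 h2 hτ).mono (isOpen_slab (isOpen_Ioo (a := x') (b := y'))) (subset_univ _)
  have key : ∀ (m n : ℝ) z, iso c d σ τ (sh (m * l + n * u) (n * v) z) =
      sh ((m * p + n * r) * a.1 + (m * q + n * s) * b.1)
        ((m * p + n * r) * a.2 + (m * q + n * s) * b.2) (iso c d σ τ z) := fun m n z => by
    rw [iso_sh]
    congr 1
    · linear_combination m * h6 + n * h8
    · linear_combination m * h7 + n * h9
  refine ⟨c, d, σ, l, u, v, h5, ⟨h3, h4, h.ld.comp hld hm, fun z hz w hw => ?_⟩, fun z hz => ?_,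
    fun z => ⟨_, (iso_iso h1 h2 hτ z).2⟩, fun z => ?_⟩
  · refine (h.eq_iff _ (hm hz) _ (hm hw)).trans ⟨?_, ?_⟩
    · rintro ⟨m, n, e⟩
      refine ⟨m * s - n * r, n * p - m * q, ?_⟩
      have h' : (p : ℝ) * s - q * r = 1 := by exact_mod_cast hd
      rw [← (iso_iso h1 h2 hτ w).1, e, ← (iso_iso h1 h2 hτ (sh _ _ z)).1, key]
      congr 2 <;> push_cast
      · linear_combination (m * a.1 + n * b.1) * h'
      · linear_combination (m * a.2 + n * b.2) * h'
    · rintro ⟨m, n, rfl⟩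
      exact ⟨m * p + n * r, m * q + n * s, by rw [key]; push_cast; rfl⟩
  · rw [← comap_comp g (h.ld.md (hm hz)) (hld.md hz), comap_congr_right _ (h.met _ (hm hz)),
      comap_iso h1 h2 hτ]
  · apply E3_ext <;> simp only [iso, lat, PiLp.toLp_apply, Matrix.cons_val_zero,
      Matrix.cons_val_one, Matrix.cons_val]
    · linear_combination z.1.1 * h6 + z.1.2 * h8
    · linear_combination z.1.1 * h7 + z.1.2 * h9

theorem fill_of (H : TubeFacts) (hT : TorGoal) : FILL := by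
  intro G _ hG M _ _ _ _ _ U g ψ a b β hU hg hβ hc
  have hD : a.1 * b.2 - a.2 * b.1 ≠ 0 := abs_pos.1 hc.pos
  have := hs_t2 hU.hs
  have := isCompact_iff_compactSpace.1 hU.cpt
  let _ : ChartedSpace E3 U := TopologicalSpace.Opens.instChartedSpace ⟨U, hU.isOpen⟩
  obtain ⟨x₀⟩ := hU.cls.1.conn.toNonempty
  obtain ⟨hsep, p, q, r, s, hd, hk⟩ := hT G hG U hU.cls.1 _ _ _
    (collar_of hD hc.ld hc.mem hc.eq_iff x₀)
  obtain ⟨A, B, hAB⟩ := hsep 0 (by norm_num) (by linarith)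
  have hs : ∀ z ∈ slab (Ioo (-3) β), ∃ w, lat a b w = z ∧ w.2 = z 2 ∧
      (cor x₀ (ψ (lat a b w)) : M) = ψ z := fun z hz => by
    obtain ⟨w, rfl⟩ := (latH hD).surjective z
    exact ⟨w, rfl, rfl, cor_val x₀ (hc.mem hz)⟩
  have hz0 : slab {0} ⊆ slab (Ioo (-3) β) := fun z hz => by
    have : z 2 = 0 := hz
    exact ⟨by rw [this]; norm_num, by rw [this]; linarith⟩
  have oA : IsOpen (Subtype.val '' A) := hU.isOpen.isOpenMap_subtype_val _ hAB.oU
  have oB : IsOpen (Subtype.val '' B) := hU.isOpen.isOpenMap_subtype_val _ hAB.oV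
  have dAB : Disjoint (Subtype.val '' A) (Subtype.val '' B) :=
    (disjoint_image_iff Subtype.val_injective).2 hAB.disj
  have mA : MapsTo ψ (slab (Ioo 0 β)) (Subtype.val '' A) := fun z hz => by
    obtain ⟨w, -, e1, e2⟩ := hs z ⟨by linarith [hz.1], hz.2⟩
    exact ⟨_, hAB.mU (x := w) ⟨e1 ▸ hz.1, e1 ▸ hz.2⟩, e2⟩
  have mB : MapsTo ψ (slab (Ioo (-3) 0)) (Subtype.val '' B) := fun z hz => by
    obtain ⟨w, -, e1, e2⟩ := hs z ⟨hz.1, by linarith [hz.2]⟩
    exact ⟨_, hAB.mV (x := w) ⟨e1 ▸ hz.1, e1 ▸ hz.2⟩, e2⟩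
  have n0 : ∀ z ∈ slab {0}, ψ z ∉ Subtype.val '' A ∧ ψ z ∉ Subtype.val '' B := fun z hz => by
    obtain ⟨⟨w, t⟩, -, e1, e2⟩ := hs z (hz0 hz)
    obtain rfl : t = 0 := e1.trans hz
    rw [← e2]
    exact ⟨fun h => hAB.sU w (Subtype.val_injective.mem_set_image.1 h),
      fun h => hAB.sV w (Subtype.val_injective.mem_set_image.1 h)⟩
  have cov : U = Subtype.val '' A ∪ Subtype.val '' B ∪ ψ '' slab {0} := by
    refine Subset.antisymm (fun x hx => ?_) (union_subset (union_subset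
      (Subtype.coe_image_subset _ _) (Subtype.coe_image_subset _ _))
      (hc.mem.mono_left hz0).image_subset)
    rcases hAB.cov ⟨x, hx⟩ with h | h | ⟨w, h⟩
    · exact Or.inl (Or.inl ⟨_, h, rfl⟩)
    · exact Or.inl (Or.inr ⟨_, h, rfl⟩)
    · exact Or.inr ⟨lat a b (w, 0), rfl,
        (cor_val x₀ (hc.mem (hz0 (a := lat a b (w, 0)) rfl))).symm.trans (congrArg Subtype.val h)⟩
  have him : ∀ c d σ τ : ℝ, τ ^ 2 = 1 → (∀ z, ∃ w, iso c d σ τ w = z) →
      (ψ ∘ iso c d σ τ) '' slab {0} = ψ '' slab {0} := fun c d σ τ hτ hsur => by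
    rw [image_comp]
    congr 1
    refine Subset.antisymm ?_ fun z hz => ?_
    · rintro _ ⟨z, hz, rfl⟩
      change τ * z 2 = 0
      rw [show z 2 = 0 from hz, mul_zero]
    · obtain ⟨w, rfl⟩ := hsur z
      have h1 : τ * w 2 = 0 := hz
      exact ⟨w, (mul_eq_zero.1 h1).resolve_left fun e => by simp [e] at hτ, rfl⟩
  rcases hk with hk | hk
  · obtain ⟨c, d, σ, l, u, v, e1, e2, e3, e4, e5⟩ := col_of (x' := -3) (y' := β) (τ := 1) hc hd
      (by norm_num) fun t ht => by rwa [one_mul]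
    obtain ⟨R, f, f', hp, hv⟩ := P216FI.exists_prof_neg (α := 2 * π / l)
      (by have := e2.lpos; positivity)
    have hi : ∀ J, MapsTo (iso c d σ 1) (slab J) (slab J) := fun J z hz => by
      change 1 * z 2 ∈ J
      rwa [one_mul]
    obtain ⟨M', _, _, _, _, _, U', g', i, T, k1, k2, k3, k4, k5, k6, k7, k8, k9, k10⟩ :=
      fill_core H hU hg e2 (by norm_num) (by linarith) (hc.mem.comp (hi _))
        (fun z hz => e3 z ⟨by linarith [hz.1], hz.2⟩) oA oB dAB
        (by rw [him _ _ _ _ (by norm_num) e4]; exact cov)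
        (fun z hz => (n0 _ (hi _ hz)).1) (mA.comp (hi _)) (mB.comp (hi _)) hp x₀ (by
          rw [preimage_image_eq _ Subtype.val_injective]
          convert hk 0 A B (by norm_num) (by linarith) hAB using 1
          funext z
          simp only [Function.comp, e5, reb, one_mul])
    refine ⟨M', inferInstance, inferInstance, inferInstance, inferInstance, inferInstance, U', g',
      _, _, i, T, k1, k2, oB, dAB, cov, k3, k4, k5, k6, k7, k8, k9, Or.inr ⟨mB, k10.trans ?_⟩⟩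
    refine ENNReal.ofReal_le_ofReal ?_
    rw [e1, mul_comm]
    exact mul_le_mul_of_nonneg_right hv.le hc.pos.le
  · obtain ⟨c, d, σ, l, u, v, e1, e2, e3, e4, e5⟩ := col_of (x' := -β) (y' := 3) (τ := -1) hc hd
      (by norm_num) fun t ht => ⟨by linarith [ht.2], by linarith [ht.1]⟩
    obtain ⟨R, f, f', hp, hv⟩ := P216FI.exists_prof_pos (α := 2 * π / l)
      (by have := e2.lpos; positivity)
    have hi : ∀ x y, MapsTo (iso c d σ (-1)) (slab (Ioo (-y) (-x))) (slab (Ioo x y)) :=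
      fun x y z hz => by
        change -1 * z 2 ∈ Ioo x y
        exact ⟨by linarith [hz.2], by linarith [hz.1]⟩
    rw [neg_neg] at e3
    obtain ⟨M', _, _, _, _, _, U', g', i, T, k1, k2, k3, k4, k5, k6, k7, k8, k9, k10⟩ :=
      fill_core H hU hg e2 (by linarith) (by norm_num)
        (hc.mem.comp (by simpa using hi (-3) β))
        (fun z hz => e3 z ⟨by linarith [hz.1], hz.2⟩) oB oA dAB.symm
        (by rw [him _ _ _ _ (by norm_num) e4, union_comm (Subtype.val '' B)]; exact cov)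
        (fun z hz => (n0 _ (by
          change -1 * z 2 = 0
          rw [show z 2 = 0 from hz, mul_zero])).2) (mB.comp (by simpa using hi (-3) 0))
        (mA.comp (by simpa using hi 0 β)) hp x₀ (by
          rw [preimage_image_eq _ Subtype.val_injective]
          convert hk 0 A B (by norm_num) (by linarith) hAB using 1
          · funext z
            simp only [Function.comp, e5, reb, flipT, neg_one_mul]
          · exact neg_zero.symm
          · exact (neg_neg _).symm)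
    refine ⟨M', inferInstance, inferInstance, inferInstance, inferInstance, inferInstance, U', g',
      _, _, i, T, k1, k2, oA, dAB.symm, by rw [union_comm (Subtype.val '' B)]; exact cov, k3, k4,
      k5, k6, k7, k8, k9, Or.inl ⟨mA, k10.trans_lt ?_⟩⟩
    rw [ENNReal.ofReal_lt_ofReal_iff (half_pos hc.pos), e1, div_eq_mul_one_div (ar a b)]
    exact mul_lt_mul_of_pos_left hv hc.pos

theorem tubeFacts : TubeFacts := fun α s R u v h hα => by
  have e : 2 * π / (2 * π / α) = α := by field_simp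
  have h1 := P216FI.Prof.tb (l := 2 * π / α) (by positivity) (e.symm ▸ h)
  rw [e] at h1
  exact ⟨fun z => (Sc_model _ z) ▸ h1.sc z, fun c _ => h1.vol c⟩

/-- **FILL** -/
theorem fill (hT : TorGoal) : FILL := fill_of tubeFacts hT

end Vale.Agent.P216FL
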