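import Vale.Agent.P216FL.Push
import Vale.Agent.P216FL.Pol

/-!
# Disjoint unions of copies of the model space, and their quotients by screw motions
-/

open Set Topology Manifold Real
open Filter hiding comap comap_id
open scoped ContDiff

noncomputable section

namespace Vale.Agent.P216FL

open Vale.Agent.P216R

/-- a disjoint union of copies of `E` -/
def Cop (J E : Type) : Type := Σ _ : J, E

namespace Cop

variable {J E : Type} [NormedAddCommGroup E]

instance : TopologicalSpace (Cop J E) := inferInstanceAs (TopologicalSpace (Σ _ : J, E))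

/-- the inclusion of the copy `j` -/
def ι (j : J) (x : E) : Cop J E := ⟨j, x⟩

theorem emb (j : J) : IsOpenEmbedding (ι j : E → Cop J E) :=
  IsOpenEmbedding.sigmaMk (σ := fun _ : J => E)

omit [NormedAddCommGroup E] in
theorem range_ι (j : J) : range (ι j : E → Cop J E) = {q | q.1 = j} := by
  ext ⟨k, x⟩
  constructor
  · rintro ⟨y, h⟩
    exact (congrArg Sigma.fst h).symm
  · rintro rfl
    exact ⟨x, rfl⟩

theorem isOpen_fst (j : J) : IsOpen {q : Cop J E | q.1 = j} := by
  rw [← range_ι]; exact (emb j).isOpen_range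

omit [NormedAddCommGroup E] in
theorem ι_eq {j k : J} {x y : E} : ι j x = ι k y ↔ j = k ∧ x = y := by
  constructor
  · intro h
    exact ⟨congrArg Sigma.fst h, congrArg (fun q : Cop J E => (q.2 : E)) h⟩
  · rintro ⟨rfl, rfl⟩
    rfl

theorem continuous_snd : Continuous fun q : Cop J E => (q.2 : E) :=
  continuous_sigma (σ := fun _ : J => E) fun _ => continuous_id

/-- the chart of the copy `j` -/
def ch (j : J) : OpenPartialHomeomorph (Cop J E) E where
  toFun q := q.2
  invFun := ι j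
  source := {q | q.1 = j}
  target := univ
  map_source' _ _ := mem_univ _
  map_target' _ _ := rfl
  left_inv' := by rintro ⟨k, x⟩ rfl; rfl
  right_inv' _ _ := rfl
  open_source := isOpen_fst j
  open_target := isOpen_univ
  continuousOn_toFun := continuous_snd.continuousOn
  continuousOn_invFun := (emb j).continuous.continuousOn

instance : ChartedSpace E (Cop J E) where
  atlas := range ch
  chartAt q := ch q.1
  mem_chart_source _ := rfl
  chart_mem_atlas q := ⟨q.1, rfl⟩

variable [NormedSpace ℝ E]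

instance : IsManifold 𝓘(ℝ, E) ∞ (Cop J E) := by
  apply isManifold_of_contDiffOn
  rintro _ _ ⟨i, rfl⟩ ⟨j, rfl⟩
  exact contDiffOn_id

theorem ld_ι (j : J) : LD E (ι j : E → Cop J E) univ := ld_symm (ι j 0)

theorem md_ι (j : J) (x : E) : md E (ι j : E → Cop J E) x = ContinuousLinearMap.id ℝ E :=
  md_symm_pt (ι j x)

theorem comap_ι (g : Ten E (Cop J E)) (j : J) (x : E) : comap (ι j) g x = g (ι j x) := by
  ext v w; rw [comap_apply, md_ι]; rfl

theorem ld_snd (j : J) : LD E (fun q : Cop J E => (q.2 : E)) {q | q.1 = j} := ld_chart (ι j 0)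

variable {Z : Type} [TopologicalSpace Z] [ChartedSpace E Z]

/-- a family of maps as one map -/
def elim {α : Type} (f : J → E → α) (q : Cop J E) : α := f q.1 q.2

omit [NormedSpace ℝ E] in
theorem elim_ev {α : Type} (f : J → E → α) (j : J) (x : E) :
    elim f =ᶠ[𝓝 (ι j x)] f j ∘ fun q : Cop J E => (q.2 : E) := by
  filter_upwards [(isOpen_fst j).mem_nhds (rfl : (ι j x).1 = j)]
  rintro ⟨k, y⟩ rfl
  rfl

theorem sm_elim {f : J → E → Z} {j : J} {x : E} (h : SM E (f j) x) : SM E (elim f) (ι j x) :=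
  (ContMDiffAt.comp (ι j x) (f := fun q : Cop J E => (q.2 : E)) h
    ((ld_snd j).sm rfl)).congr_of_eventuallyEq (elim_ev f j x)

theorem ld_elim {f : J → E → Z} {S : J → Set E} (h : ∀ j, LD E (f j) (S j)) :
    LD E (elim f) {q | q.2 ∈ S q.1} := by
  refine ⟨isOpen_sigma_iff.2 fun j => (h j).isOpen, ?_, ?_⟩
  · rintro ⟨j, x⟩ hx
    exact (sm_elim ((h j).sm hx)).contMDiffWithinAt
  · rintro ⟨j, x⟩ hx
    change Function.Injective (md E (elim f) (ι j x))
    rw [md_congr (elim_ev f j x), md_comp (x := ι j x) ((h j).md hx) ((ld_snd j).md rfl)]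
    exact ((h j).inj x hx).comp ((ld_snd j).inj _ rfl)

theorem comap_elim {f : J → E → Z} {j : J} {x : E} (h : SM E (f j) x) (g : Ten E Z) :
    comap (elim f) g (ι j x) = comap (f j) g x := by
  rw [← comap_ι (comap _ _), comap_comp _ (sm_elim h).md ((ld_ι j).md (mem_univ x))]
  rfl

end Cop

open Cop

variable {J : Type} (θ v : J → ℝ)

/-- the screw motions of the family -/
def scs (n : ℤ) : Cop J E3 → Cop J E3 := elim fun j z => ι j (scw (n * θ j) (n * v j) z)

theorem scs_zero (q : Cop J E3) : scs θ v 0 q = q := by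
  obtain ⟨j, z⟩ := q
  simp only [scs, elim, Int.cast_zero, zero_mul, scw_zero]
  rfl

theorem scs_scs (m n : ℤ) (q : Cop J E3) : scs θ v m (scs θ v n q) = scs θ v (m + n) q := by
  obtain ⟨j, z⟩ := q
  simp only [scs, elim, ι, scw_scw, Int.cast_add, add_mul]
  rfl

theorem sm_scs (n : ℤ) (q : Cop J E3) : SM E3 (scs θ v n) q :=
  sm_elim (j := q.1) (x := q.2)
    (((ld_ι q.1).sm (mem_univ _)).comp _ ((ld_scw _ _).sm (mem_univ _)))

/-- the orbit relation of the screw motions -/
def scsS : Setoid (Cop J E3) where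
  r a b := ∃ n : ℤ, scs θ v n a = b
  iseqv := by
    refine ⟨fun a => ⟨0, scs_zero θ v a⟩, ?_, ?_⟩
    · rintro a _ ⟨n, rfl⟩
      exact ⟨-n, by rw [scs_scs, neg_add_cancel, scs_zero]⟩
    · rintro a _ _ ⟨n, rfl⟩ ⟨m, rfl⟩
      exact ⟨m + n, (scs_scs θ v m n a).symm⟩

/-- a family of solid tori -/
def tor (hv : ∀ j, 0 < v j) : Et E3 (Cop J E3) where
  s := scsS θ v
  inj := by
    rintro ⟨j, z⟩
    refine ⟨ι j '' {w | |w 2 - z 2| < v j / 2}, ((emb j).isOpenMap _ (isOpen_lt
      ((cont_co 2).sub continuous_const).abs continuous_const)).mem_nhds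
        ⟨z, by simpa using hv j, rfl⟩, ?_⟩
    rintro _ ⟨a, ha, rfl⟩ _ ⟨b, hb, rfl⟩ ⟨n, hn⟩
    have h1 : a 2 + n * v j = b 2 := congrArg (fun w : E3 => w 2) (ι_eq.1 hn).2
    have h2 : |(n : ℝ)| * v j < 1 * v j := by
      have ha' := abs_lt.1 (show |a 2 - z 2| < v j / 2 from ha)
      have hb' := abs_lt.1 (show |b 2 - z 2| < v j / 2 from hb)
      rw [← abs_of_pos (hv j), ← abs_mul, abs_of_pos (hv j), abs_lt]
      constructor <;> linarith
    have h3 : |n| < 1 := by exact_mod_cast lt_of_mul_lt_mul_right h2 (hv j).le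
    rw [Int.abs_lt_one_iff] at h3
    rw [← hn, h3, scs_zero]
  dif := by
    rintro a _ ⟨n, rfl⟩
    exact ⟨scs θ v n, rfl, sm_scs θ v n a, Eventually.of_forall fun x => (scsS θ v).symm ⟨n, rfl⟩⟩

variable {θ v} (hv : ∀ j, 0 < v j)

theorem tor_eq {j k : J} {z w : E3} : (tor θ v hv).pr (ι j z) = (tor θ v hv).pr (ι k w) ↔
    j = k ∧ ∃ n : ℤ, scw (n * θ j) (n * v j) z = w := by
  rw [Et.pr_eq]
  constructor
  · rintro ⟨n, hn⟩
    exact ⟨(ι_eq.1 hn).1, n, (ι_eq.1 hn).2⟩
  · rintro ⟨rfl, n, rfl⟩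
    exact ⟨n, rfl⟩

theorem comap_tor {S : J → E3 → Bil E3} (hS : ∀ j a t, comap (scw a t) (S j) = S j) :
    comap (tor θ v hv).pr ((tor θ v hv).dn (elim S)) = elim S := by
  funext ⟨j, z⟩
  refine (tor θ v hv).comap_dn ?_
  rintro _ ⟨n, rfl⟩
  refine ⟨scs θ v n, rfl, sm_scs θ v n _,
    Eventually.of_forall fun x => (scsS θ v).symm ⟨n, rfl⟩, ?_⟩
  have h1 : SM E3 (ι j : E3 → Cop J E3) (scw (n * θ j) (n * v j) z) := (ld_ι j).sm (mem_univ _)
  have h2 : SM E3 (scw (n * θ j) (n * v j)) z := (ld_scw _ _).sm (mem_univ _)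
  refine (comap_elim (j := j) (x := z) (h1.comp z h2) _).trans ?_
  change comap (ι j ∘ scw (n * θ j) (n * v j)) _ z = S j z
  rw [← comap_comp _ h1.md h2.md, comap_congr_right (h := S j) _ (comap_ι _ _ _), hS]

end Vale.Agent.P216FL
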