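import Mathlib.Geometry.Manifold.LocalDiffeomorph
import Mathlib.Geometry.Manifold.MFDeriv.Atlas
import Mathlib.Geometry.Manifold.ContMDiff.Atlas
import Mathlib.Geometry.Manifold.ContMDiff.NormedSpace

/-!
# Etale quotients of manifolds

An equivalence relation on a manifold which is locally trivial and locally given by smooth maps
has a manifold as quotient, and the projection is a local diffeomorphism.
-/

open Set Filter Topology Manifold
open scoped ContDiff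

noncomputable section

namespace Vale.Agent.P216FL

/-- An etale equivalence relation on a manifold `Y`. -/
structure Et (E : Type) [NormedAddCommGroup E] [NormedSpace ℝ E] (Y : Type) [TopologicalSpace Y]
    [ChartedSpace E Y] where
  s : Setoid Y
  inj : ∀ y, ∃ U ∈ 𝓝 y, ∀ a ∈ U, ∀ b ∈ U, s a b → a = b
  dif : ∀ a b, s a b → ∃ τ : Y → Y, τ a = b ∧ ContMDiffAt 𝓘(ℝ, E) 𝓘(ℝ, E) ∞ τ a ∧
    ∀ᶠ x in 𝓝 a, s (τ x) x

variable {E : Type} [NormedAddCommGroup E] [NormedSpace ℝ E] {Y : Type} [TopologicalSpace Y]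
  [ChartedSpace E Y]

namespace Et

variable (e : Et E Y)

/-- The quotient. -/
def Q : Type := Quotient e.s

instance : TopologicalSpace e.Q := inferInstanceAs (TopologicalSpace (Quotient e.s))

/-- The projection. -/
def pr (y : Y) : e.Q := Quotient.mk e.s y

/-- A chosen representative. -/
def out (q : e.Q) : Y := Quotient.out q

theorem pr_out (q : e.Q) : e.pr (e.out q) = q := Quotient.out_eq q

theorem pr_eq {a b : Y} : e.pr a = e.pr b ↔ e.s a b := Quotient.eq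

theorem pr_surj : Function.Surjective e.pr := fun q => ⟨e.out q, e.pr_out q⟩

theorem pr_cont : Continuous e.pr := continuous_quotient_mk'

theorem pr_quot : IsQuotientMap e.pr := isQuotientMap_quotient_mk'

theorem pr_open : IsOpenMap e.pr := by
  intro U hU
  rw [← e.pr_quot.isOpen_preimage, isOpen_iff_mem_nhds]
  rintro b ⟨a, ha, hab⟩
  obtain ⟨τ, h1, h2, h3⟩ := e.dif b a (e.pr_eq.1 hab.symm)
  have h4 : ∀ᶠ x in 𝓝 b, τ x ∈ U := h2.continuousAt (by rw [h1]; exact hU.mem_nhds ha)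
  filter_upwards [h3, h4] with x hx hx'
  exact ⟨τ x, hx', e.pr_eq.2 hx⟩

theorem pr_lh : IsLocalHomeomorph e.pr := by
  rw [isLocalHomeomorph_iff_isOpenEmbedding_restrict]
  intro y
  obtain ⟨U, hU, h⟩ := e.inj y
  refine ⟨interior U, interior_mem_nhds.2 hU, ?_⟩
  refine IsOpenEmbedding.of_continuous_injective_isOpenMap
    (e.pr_cont.comp continuous_subtype_val) ?_ (e.pr_open.domRestrict isOpen_interior)
  intro a b hab
  exact Subtype.ext (h _ (interior_subset a.2) _ (interior_subset b.2) (e.pr_eq.1 hab))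

theorem map_nhds (y : Y) : map e.pr (𝓝 y) = 𝓝 (e.pr y) := e.pr_lh.map_nhds_eq y

/-- A local section of the projection through `y`. -/
def sec (y : Y) : OpenPartialHomeomorph e.Q Y := e.pr_lh.localInverseAt y

theorem sec_symm (y : Y) : ((e.sec y).symm : Y → e.Q) = e.pr := e.pr_lh.localInverseAt_symm y

theorem mem_sec_target (y : Y) : y ∈ (e.sec y).target := e.pr_lh.self_mem_localInverseAt_target

theorem mem_sec_source (y : Y) : e.pr y ∈ (e.sec y).source :=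
  e.pr_lh.apply_self_mem_localInverseAt_source

theorem pr_sec {y : Y} {q : e.Q} (h : q ∈ (e.sec y).source) : e.pr (e.sec y q) = q :=
  e.pr_lh.apply_localInverseAt_of_mem h

theorem sec_pr {y a : Y} (h : a ∈ (e.sec y).target) : e.sec y (e.pr a) = a := by
  rw [← e.sec_symm y]; exact (e.sec y).right_inv h

theorem sec_pr_self (y : Y) : e.sec y (e.pr y) = y := e.sec_pr (e.mem_sec_target y)

theorem sec_pr_ev (y : Y) : ∀ᶠ a in 𝓝 y, e.sec y (e.pr a) = a := by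
  filter_upwards [(e.sec y).open_target.mem_nhds (e.mem_sec_target y)] with a ha
  exact e.sec_pr ha

theorem pr_sec_ev (y : Y) : ∀ᶠ q in 𝓝 (e.pr y), e.pr (e.sec y q) = q := by
  filter_upwards [(e.sec y).open_source.mem_nhds (e.mem_sec_source y)] with a ha
  exact e.pr_sec ha

instance : ChartedSpace E e.Q := e.pr_lh.chartedSpaceOfRightInverse (g := e.out) e.pr_out

theorem chartAt_eq (q : e.Q) :
    chartAt E q = (e.sec (e.out q)).trans (chartAt E (e.out q)) := rfl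

theorem smooth_sec_pr {y a : Y} (h : e.pr a ∈ (e.sec y).source) :
    ContMDiffAt 𝓘(ℝ, E) 𝓘(ℝ, E) ∞ (e.sec y ∘ e.pr) a := by
  obtain ⟨τ, h1, h2, h3⟩ := e.dif a (e.sec y (e.pr a)) (e.pr_eq.1 (e.pr_sec h).symm)
  have h4 : ∀ᶠ x in 𝓝 a, τ x ∈ (e.sec y).target :=
    h2.continuousAt (by rw [h1]; exact (e.sec y).open_target.mem_nhds ((e.sec y).map_source h))
  refine h2.congr_of_eventuallyEq ?_
  filter_upwards [h3, h4] with x hx hx'
  simp only [Function.comp]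
  rw [← e.pr_eq.2 hx, e.sec_pr hx']

/-- Points with no related pair nearby are separated in the quotient. -/
theorem disjoint_nhds {a b : Y} (h : ∀ᶠ p in 𝓝 a ×ˢ 𝓝 b, ¬ e.s p.1 p.2) :
    Disjoint (𝓝 (e.pr a)) (𝓝 (e.pr b)) := by
  obtain ⟨A, hA, B, hB, hAB⟩ := mem_prod_iff.1 h
  rw [Filter.disjoint_iff]
  refine ⟨e.pr '' A, ?_, e.pr '' B, ?_, ?_⟩
  · rw [← e.map_nhds]; exact image_mem_map hA
  · rw [← e.map_nhds]; exact image_mem_map hB
  · rw [Set.disjoint_left]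
    rintro q ⟨x, hx, rfl⟩ ⟨y, hy, hxy⟩
    exact hAB (mk_mem_prod hx hy) (e.pr_eq.1 hxy.symm)

theorem t2 (h : IsClosed {p : Y × Y | e.s p.1 p.2}) : T2Space e.Q := by
  rw [t2Space_iff_disjoint_nhds]
  intro p q hpq
  obtain ⟨a, rfl⟩ := e.pr_surj p
  obtain ⟨b, rfl⟩ := e.pr_surj q
  apply e.disjoint_nhds
  rw [← nhds_prod_eq]
  exact h.isOpen_compl.mem_nhds fun hh => hpq (e.pr_eq.2 hh)

variable [IsManifold 𝓘(ℝ, E) ∞ Y]

instance : IsManifold 𝓘(ℝ, E) ∞ e.Q := by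
  apply isManifold_of_contDiffOn
  rintro _ _ ⟨p, rfl⟩ ⟨q, rfl⟩ x hx
  change x ∈ _ at hx
  simp only [mfld_simps] at hx
  obtain ⟨⟨h1, h2⟩, h3, h4⟩ := hx
  have e1 : ∀ y, ((e.pr_lh.localInverseAt y).symm : Y → e.Q) = e.pr := e.sec_symm
  rw [e1] at h3 h4
  have k1 : ContMDiffAt 𝓘(ℝ, E) 𝓘(ℝ, E) ∞ (chartAt E (e.out p)).symm x :=
    contMDiffOn_chart_symm.contMDiffAt ((chartAt E (e.out p)).open_target.mem_nhds h1)
  have k2 := e.smooth_sec_pr (y := e.out q) h3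
  have k3 : ContMDiffAt 𝓘(ℝ, E) 𝓘(ℝ, E) ∞ (chartAt E (e.out q))
      ((e.sec (e.out q) ∘ e.pr) ((chartAt E (e.out p)).symm x)) :=
    contMDiffOn_chart.contMDiffAt ((chartAt E (e.out q)).open_source.mem_nhds h4)
  have k4 := (k3.comp _ k2).comp x k1
  rw [contMDiffAt_iff_contDiffAt] at k4
  refine (k4.congr_of_eventuallyEq (Eventually.of_forall fun z => ?_)).contDiffWithinAt
  simp only [mfld_simps, e1]
  rfl

omit [IsManifold 𝓘(ℝ, E) ∞ Y] in
theorem smooth_pr : ContMDiff 𝓘(ℝ, E) 𝓘(ℝ, E) ∞ e.pr := by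
  intro a
  rw [contMDiffAt_iff_target]
  refine ⟨e.pr_cont.continuousAt, ?_⟩
  have h0 : e.pr a ∈ (e.sec (e.out (e.pr a))).source := by
    have := e.mem_sec_source (e.out (e.pr a))
    rwa [e.pr_out] at this
  have h1 : (e.sec (e.out (e.pr a)) ∘ e.pr) a = e.out (e.pr a) := by
    have := e.sec_pr_self (e.out (e.pr a))
    rwa [e.pr_out] at this
  have k2 := e.smooth_sec_pr h0
  have k3 : ContMDiffAt 𝓘(ℝ, E) 𝓘(ℝ, E) ∞ (extChartAt 𝓘(ℝ, E) (e.out (e.pr a)))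
      ((e.sec (e.out (e.pr a)) ∘ e.pr) a) := by
    rw [h1]; exact contMDiffAt_extChartAt
  exact k3.comp a k2

theorem smooth_sec {y : Y} {q : e.Q} (h : q ∈ (e.sec y).source) :
    ContMDiffAt 𝓘(ℝ, E) 𝓘(ℝ, E) ∞ (e.sec y) q := by
  rw [contMDiffAt_iff_source]
  have h0 : e.sec (e.out q) q = e.out q := by
    have := e.sec_pr_self (e.out q)
    rwa [e.pr_out] at this
  have h1 : extChartAt 𝓘(ℝ, E) q q = chartAt E (e.out q) (e.out q) := by
    simp only [mfld_simps, chartAt_eq, h0]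
  have k1 : ContMDiffAt 𝓘(ℝ, E) 𝓘(ℝ, E) ∞ (chartAt E (e.out q)).symm
      (chartAt E (e.out q) (e.out q)) :=
    contMDiffOn_chart_symm.contMDiffAt ((chartAt E (e.out q)).open_target.mem_nhds
      (mem_chart_target E _))
  have k2 : ContMDiffAt 𝓘(ℝ, E) 𝓘(ℝ, E) ∞ (e.sec y ∘ e.pr)
      ((chartAt E (e.out q)).symm (chartAt E (e.out q) (e.out q))) := by
    apply e.smooth_sec_pr
    rw [(chartAt E (e.out q)).left_inv (mem_chart_source E _), e.pr_out]
    exact h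
  have k3 := k2.comp _ k1
  rw [h1]
  refine (k3.congr_of_eventuallyEq (Eventually.of_forall fun z => ?_)).contMDiffWithinAt
  simp only [mfld_simps, chartAt_eq, e.sec_symm]

theorem pr_ld : IsLocalDiffeomorph 𝓘(ℝ, E) 𝓘(ℝ, E) ∞ e.pr := by
  intro y
  refine ⟨⟨(e.sec y).symm.toPartialEquiv, (e.sec y).open_target, (e.sec y).open_source,
    ?_, fun q hq => (e.smooth_sec hq).contMDiffWithinAt⟩, e.mem_sec_target y, fun a _ => ?_⟩
  · have : (((e.sec y).symm.toPartialEquiv : PartialEquiv Y e.Q) : Y → e.Q) = e.pr :=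
      e.sec_symm y
    rw [this]
    exact e.smooth_pr.contMDiffOn
  · exact (congrFun (e.sec_symm y) a).symm

omit [IsManifold 𝓘(ℝ, E) ∞ Y] in
theorem has_mfderiv_out (q : e.Q) :
    HasMFDerivAt 𝓘(ℝ, E) 𝓘(ℝ, E) e.pr (e.out q) (ContinuousLinearMap.id ℝ E) := by
  refine ⟨e.pr_cont.continuousAt, ?_⟩
  have h1 : writtenInExtChartAt 𝓘(ℝ, E) 𝓘(ℝ, E) (e.out q) e.pr =ᶠ[𝓝 (extChartAt 𝓘(ℝ, E)
      (e.out q) (e.out q))] id := by
    have h2 : ∀ᶠ z in 𝓝 (extChartAt 𝓘(ℝ, E) (e.out q) (e.out q)),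
        (extChartAt 𝓘(ℝ, E) (e.out q)).symm z ∈ (e.sec (e.out q)).target := by
      refine continuousAt_extChartAt_symm (I := 𝓘(ℝ, E)) (e.out q) ?_
      rw [extChartAt_to_inv]
      exact (e.sec _).open_target.mem_nhds (e.mem_sec_target _)
    filter_upwards [h2, extChartAt_target_mem_nhds (I := 𝓘(ℝ, E)) (e.out q)] with z hz hz'
    simp only [writtenInExtChartAt, Function.comp, e.pr_out, id]
    have h3 : extChartAt 𝓘(ℝ, E) q (e.pr ((extChartAt 𝓘(ℝ, E) (e.out q)).symm z)) =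
        extChartAt 𝓘(ℝ, E) (e.out q)
          (e.sec (e.out q) (e.pr ((extChartAt 𝓘(ℝ, E) (e.out q)).symm z))) := rfl
    rw [h3, e.sec_pr hz, PartialEquiv.right_inv _ hz']
  exact ((hasFDerivAt_id _).congr_of_eventuallyEq h1).hasFDerivWithinAt

omit [IsManifold 𝓘(ℝ, E) ∞ Y] in
theorem mfderiv_out (q : e.Q) :
    (mfderiv 𝓘(ℝ, E) 𝓘(ℝ, E) e.pr (e.out q) : E →L[ℝ] E) = ContinuousLinearMap.id ℝ E :=
  (e.has_mfderiv_out q).mfderiv

omit [IsManifold 𝓘(ℝ, E) ∞ Y] in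
/-- The derivative of the projection at `a` is the derivative of any local map `τ` realising the
relation between `a` and the chosen representative. -/
theorem mfderiv_pr {a : Y} {τ : Y → Y} (h1 : τ a = e.out (e.pr a))
    (h2 : ContMDiffAt 𝓘(ℝ, E) 𝓘(ℝ, E) ∞ τ a) (h3 : ∀ᶠ x in 𝓝 a, e.s (τ x) x) :
    (mfderiv 𝓘(ℝ, E) 𝓘(ℝ, E) e.pr a : E →L[ℝ] E) = mfderiv 𝓘(ℝ, E) 𝓘(ℝ, E) τ a := by
  have k1 : HasMFDerivAt 𝓘(ℝ, E) 𝓘(ℝ, E) e.pr (τ a) (ContinuousLinearMap.id ℝ E) := by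
    rw [h1]; exact e.has_mfderiv_out _
  have k2 := k1.comp a (h2.mdifferentiableAt (by simp)).hasMFDerivAt
  have k3 : e.pr =ᶠ[𝓝 a] e.pr ∘ τ := by
    filter_upwards [h3] with x hx
    exact (e.pr_eq.2 hx).symm
  rw [k3.mfderiv_eq, k2.mfderiv]
  rfl

/-- A map out of the quotient is smooth if its composite with the projection is. -/
theorem smooth_of_comp {E' : Type} [NormedAddCommGroup E'] [NormedSpace ℝ E'] {Z : Type}
    [TopologicalSpace Z] [ChartedSpace E' Z] {f : e.Q → Z} {a : Y}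
    (h : ContMDiffAt 𝓘(ℝ, E) 𝓘(ℝ, E') ∞ (f ∘ e.pr) a) :
    ContMDiffAt 𝓘(ℝ, E) 𝓘(ℝ, E') ∞ f (e.pr a) := by
  have k1 : ContMDiffAt 𝓘(ℝ, E) 𝓘(ℝ, E') ∞ (f ∘ e.pr) (e.sec a (e.pr a)) := by
    rw [e.sec_pr_self]; exact h
  refine (k1.comp _ (e.smooth_sec (e.mem_sec_source a))).congr_of_eventuallyEq ?_
  filter_upwards [e.pr_sec_ev a] with q hq
  simp only [Function.comp, hq]

end Et

end Vale.Agent.P216FL
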