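import Vale.Agent.P216FL.Cop
import Vale.Agent.P216FI.Tube

/-!
# Filling a family of toral collars by solid tori
-/

open Set Topology Manifold Real
open Filter hiding comap comap_id
open scoped ContDiff

noncomputable section

namespace Vale.Agent.P216FL

open Vale.Agent.P216R Cop
open Vale.Agent.P216FI (ka scr slab isOpen_slab ee)

theorem ka_eq : ka = pol := by
  funext α R p
  apply E3_ext <;> simp

theorem scr_eq : scr = scw := by
  funext θ t z
  apply E3_ext <;> simp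

theorem rad_eq : P216FI.rad = rad := rfl

theorem sh_eq (a c : ℝ) (p : E3) : p + a • ee 0 + c • ee 1 = sh a c p := by
  apply E3_ext <;> simp

variable {M : Type} [TopologicalSpace M] [ChartedSpace E3 M]
  {M' : Type} [TopologicalSpace M'] [ChartedSpace E3 M'] {J : Type}

/-- `ψ` induces an embedding of the slab `a < p 2 < b` modulo the lattice spanned by `(l, 0)` and
`(u, v)`. -/
structure Col (ψ : E3 → M) (l u v a b : ℝ) : Prop where
  lpos : 0 < l
  vpos : 0 < v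
  ld : LD E3 ψ (slab (Ioo a b))
  fib : ∀ p ∈ slab (Ioo a b), ∀ q ∈ slab (Ioo a b),
    ψ p = ψ q ↔ ∃ m n : ℤ, sh (m * l + n * u) (n * v) p = q

/-- `U'` is obtained from `K` by gluing solid tori `Φ j` along the collars `ψ j` on
`0 < p 2 < b j`; the meridian of `Φ j` is the lattice vector `(l j, 0)`. -/
structure IsFill (ψ : J → E3 → M) (l u v b R : J → ℝ) (K : Set M) (U' : Set M') (i : M → M')
    (Φ : J → E3 → M') : Prop where
  ld : LD E3 i univ
  emb : IsOpenEmbedding i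
  tube : ∀ j, LD E3 (Φ j) univ
  fib : ∀ j k z w, Φ j z = Φ k w →
    j = k ∧ ∃ n : ℤ, scr (n * (2 * π / l j * u j)) (n * v j) z = w
  per : ∀ j z, Φ j (scr (2 * π / l j * u j) (v j) z) = Φ j z
  eq : ∀ j, ∀ p ∈ slab (Ioo 0 (b j)), Φ j (ka (2 * π / l j) (R j) p) = i (ψ j p)
  new : ∀ j z, Φ j z ∈ range i → R j < rad z ∧ rad z < b j + R j
  cover : U' = i '' K ∪ ⋃ j, Φ j '' {z | rad z ≤ R j}

theorem Col.mono {ψ : E3 → M} {l u v a b a' b' : ℝ} (h : Col ψ l u v a b) (ha : a ≤ a')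
    (hb : b' ≤ b) : Col ψ l u v a' b' :=
  have hs : slab (Ioo a' b') ⊆ slab (Ioo a b) := fun _ hp => Ioo_subset_Ioo ha hb hp
  ⟨h.lpos, h.vpos, h.ld.mono (isOpen_slab isOpen_Ioo) hs, fun p hp q hq => h.fib p (hs hp) q (hs hq)⟩

theorem Col.per {ψ : E3 → M} {l u v a b : ℝ} (h : Col ψ l u v a b) {p : E3}
    (hp : p ∈ slab (Ioo a b)) (m n : ℤ) : ψ (sh (m * l + n * u) (n * v) p) = ψ p :=
  ((h.fib p hp (sh (m * l + n * u) (n * v) p) hp).2 ⟨m, n, rfl⟩).symm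

theorem Col.height {ψ : E3 → M} {l u v a b : ℝ} (h : Col ψ l u v a b) {p q : E3}
    (hp : p ∈ slab (Ioo a b)) (hq : q ∈ slab (Ioo a b)) (e : ψ p = ψ q) : p 2 = q 2 := by
  obtain ⟨m, n, rfl⟩ := (h.fib p hp q hq).1 e
  rfl

theorem pol_lat {l : ℝ} (hl : l ≠ 0) (u v R : ℝ) (m n : ℤ) (p : E3) :
    pol (2 * π / l) R (sh (m * l + n * u) (n * v) p) =
      scw (n * (2 * π / l * u)) (n * v) (pol (2 * π / l) R p) := by
  rw [pol_sh, ← scw_add_int (n * (2 * π / l * u)) _ m]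
  congr 1
  field_simp
  ring

theorem lat_of_pol {l : ℝ} (hl : l ≠ 0) {u v R : ℝ} {n : ℤ} {p q : E3} (hp : 0 < p 2 + R)
    (hq : 0 < q 2 + R) (h : scw (n * (2 * π / l * u)) (n * v) (pol (2 * π / l) R p) =
      pol (2 * π / l) R q) : ∃ m : ℤ, sh (m * l + n * u) (n * v) p = q := by
  rw [← pol_lat hl u v R 0 n] at h
  obtain ⟨h1, h2, m, hm⟩ := pol_eq (p := sh ((0 : ℤ) * l + n * u) (n * v) p) hp hq h
  refine ⟨m, E3_ext ?_ h1.symm h2.symm⟩
  have h3 : (2 * π / l) ≠ 0 := div_ne_zero (by positivity) hl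
  apply mul_left_cancel₀ h3
  rw [hm]
  simp only [sh_0, Int.cast_zero]
  field_simp
  ring

/-- Existence of the filled manifold, with descent of tensors. -/
theorem exists_fill [IsManifold 𝓘(ℝ, E3) ∞ M] {ψ : J → E3 → M} {l u v b R : J → ℝ}
    (hc : ∀ j, Col (ψ j) (l j) (u j) (v j) 0 (b j)) (hR : ∀ j, 0 ≤ R j)
    (hd : ∀ j k, ∀ p ∈ slab (Ioo 0 (b j)), ∀ q ∈ slab (Ioo 0 (b k)), ψ j p = ψ k q → j = k)
    (K : Set M) :
    ∃ (M' : Type) (_ : TopologicalSpace M') (_ : ChartedSpace E3 M')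
      (_ : IsManifold 𝓘(ℝ, E3) ∞ M') (U' : Set M') (i : M → M') (Φ : J → E3 → M'),
      IsFill ψ l u v b R K U' i Φ ∧ ∀ (g : Ten E3 M) (S : J → E3 → Bil E3),
        (∀ j a t, comap (scr a t) (S j) = S j) →
        (∀ j, ∀ p ∈ slab (Ioo 0 (b j)),
          comap (ψ j) g p = comap (ka (2 * π / l j) (R j)) (S j) p) →
        ∃ g' : Ten E3 M', comap i g' = g ∧ ∀ j, comap (Φ j) g' = S j := by
  rw [ka_eq, scr_eq]
  have hα : ∀ j, 2 * π / l j ≠ 0 := fun j => div_ne_zero (by positivity) (hc j).lpos.ne'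
  have hp : ∀ j, ∀ p ∈ slab (Ioo 0 (b j)), 0 < p 2 + R j := fun j p hp =>
    add_pos_of_pos_of_nonneg hp.1 (hR j)
  let T := tor (fun j => 2 * π / l j * u j) v fun j => (hc j).vpos
  have hTe : ∀ j k z w, T.pr (ι j z) = T.pr (ι k w) ↔
      j = k ∧ ∃ n : ℤ, scw (n * (2 * π / l j * u j)) (n * v j) z = w := fun _ _ _ _ => tor_eq _
  have hT : ∀ j, LD E3 (T.pr ∘ ι j) univ := fun j => T.ld_pr.comp (ld_ι j) (mapsTo_univ _ _)
  have hpol : ∀ j, LD E3 (pol (2 * π / l j) (R j)) (slab (Ioo 0 (b j))) := fun j =>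
    (ld_pol (hα j)).mono (isOpen_slab isOpen_Ioo) (hp j)
  have hκ : ∀ j, LD E3 ((T.pr ∘ ι j) ∘ pol (2 * π / l j) (R j)) (slab (Ioo 0 (b j))) := fun j =>
    (hT j).comp (hpol j) (mapsTo_univ _ _)
  let D : Gl E3 M T.Q (Cop J E3) :=
    { S := {q | q.2 ∈ slab (Ioo 0 (b q.1))}
      ψ := elim ψ
      κ := elim fun j => (T.pr ∘ ι j) ∘ pol (2 * π / l j) (R j)
      hψ := ld_elim fun j => (hc j).ld
      hκ := ld_elim hκ
      fib := by
        rintro ⟨j, p⟩ h1 ⟨k, q⟩ h2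
        refine Iff.trans ?_ (hTe j k _ _).symm
        constructor
        · intro h
          obtain rfl := hd j k p h1 q h2 h
          obtain ⟨m, n, rfl⟩ := ((hc j).fib p h1 q h2).1 h
          exact ⟨rfl, n, (pol_lat (hc j).lpos.ne' _ _ _ m n p).symm⟩
        · rintro ⟨rfl, n, hn⟩
          obtain ⟨m, hm⟩ := lat_of_pol (hc j).lpos.ne' (hp j p h1) (hp j q h2) hn
          exact ((hc j).fib p h1 q h2).2 ⟨m, n, hm⟩ }
  refine ⟨D.Q, inferInstance, inferInstance, inferInstance, _, D.iA,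
    fun j => D.iB ∘ T.pr ∘ ι j, ⟨D.ld_iA, D.iA_emb, fun j => D.ld_iB.comp (hT j) (mapsTo_univ _ _),
      fun j k z w h => ?_, fun j z => ?_, fun j p h => ?_, ?_, rfl⟩, fun g S h1 h2 => ?_⟩
  · rw [scr_eq]
    exact (hTe j k z w).1 (D.iB_inj h)
  · rw [scr_eq]
    have := (hTe j j z (scw (2 * π / l j * u j) (v j) z)).2 ⟨rfl, 1, by simp⟩
    exact congrArg D.iB this.symm
  · rw [ka_eq]
    exact (D.iA_ψ (p := ι j p) h).symm
  · rintro j z ⟨a, ha⟩
    obtain ⟨⟨k, p⟩, h1, -, h2⟩ := D.iA_eq_iB.1 ha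
    obtain ⟨rfl, n, rfl⟩ := (hTe k j _ z).1 h2
    rw [rad_scw, rad_pol (hp k p h1).le]
    exact ⟨by linarith [h1.1], by linarith [h1.2]⟩
  · have e1 : ∀ j, comap (T.pr ∘ ι j) (T.dn (elim S)) = S j := fun j => by
      funext z
      rw [← comap_comp _ (T.ld_pr.md (mem_univ _)) ((ld_ι j).md (mem_univ _)), comap_tor _ h1,
        comap_ι]
      rfl
    have e2 : ∀ p ∈ D.S, comap D.ψ g p = comap D.κ (T.dn (elim S)) p := by
      rintro ⟨j, p⟩ h
      refine (comap_elim (f := ψ) (j := j) (x := p) ((hc j).ld.sm h) g).trans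
        ((h2 j p h).trans ?_)
      refine Eq.trans ?_ (comap_elim (f := fun j => (T.pr ∘ ι j) ∘ pol (2 * π / l j) (R j))
        (j := j) (x := p) ((hκ j).sm h) _).symm
      rw [← comap_comp _ ((hT j).md (mem_univ _)) ((hpol j).md h), e1]
    refine ⟨D.ten g (T.dn (elim S)), D.comap_iA e2, fun j => ?_⟩
    funext z
    rw [← comap_comp _ (D.ld_iB.md (mem_univ _)) ((hT j).md (mem_univ _)), D.comap_iB e2, e1]

end Vale.Agent.P216FL
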