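import Vale.Agent.P216FL.FillTop
import Vale.Agent.P216T.Cov

/-!
# From the topological filling statement to smooth fillings
-/

open Set Topology Manifold Real
open Filter hiding comap comap_id
open scoped ContDiff

noncomputable section

namespace Vale.Agent.P216FL

open Vale.Agent.P216R
open Vale.Agent.P216FI (ka scr slab isOpen_slab)
open Vale.Agent.P216T (InC OE KeepT Tube Collar)

section cor

variable {X Y : Type} [TopologicalSpace X] [TopologicalSpace Y] {U : Set X}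

open Classical in
/-- corestriction to a subset -/
def cor (x₀ : U) (y : X) : U := if h : y ∈ U then ⟨y, h⟩ else x₀

omit [TopologicalSpace X] in
theorem cor_val (x₀ : U) {y : X} (h : y ∈ U) : (cor x₀ y : X) = y := by simp [cor, h]

omit [TopologicalSpace X] in
theorem cor_coe (x₀ y : U) : cor x₀ (y : X) = y := Subtype.ext (cor_val x₀ y.2)

omit [TopologicalSpace X] in
theorem cor_eq (x₀ : U) {y z : X} (h : y ∈ U) (h' : z ∈ U) : cor x₀ y = cor x₀ z ↔ y = z :=
  ⟨fun e => by rw [← cor_val x₀ h, e, cor_val x₀ h'], fun e => by rw [e]⟩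

theorem cont_cor (x₀ : U) {f : Y → X} {S : Set Y} (hf : ContinuousOn f S) (hm : MapsTo f S U) :
    ContinuousOn (fun y => cor x₀ (f y)) S := by
  rw [IsInducing.subtypeVal.continuousOn_iff]
  exact hf.congr fun y hy => cor_val x₀ (hm hy)

omit [TopologicalSpace Y] in
theorem isOpen_cor (x₀ : U) {f : Y → X} {W : Set Y} (hm : MapsTo f W U) (h : IsOpen (f '' W)) :
    IsOpen ((fun y => cor x₀ (f y)) '' W) := by
  convert h.preimage (continuous_subtype_val (p := (· ∈ U))) using 1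
  ext z
  constructor
  · rintro ⟨y, hy, rfl⟩
    exact ⟨y, hy, (cor_val x₀ (hm hy)).symm⟩
  · rintro ⟨y, hy, e⟩
    exact ⟨y, hy, (congrArg (cor x₀) e).trans (cor_coe x₀ z)⟩

theorem hs_t2 (h : U.Pairwise fun x y => Disjoint (𝓝 x) (𝓝 y)) : T2Space U :=
  t2Space_iff_disjoint_nhds.2 fun x y hxy => by
    change Disjoint (𝓝 x) (𝓝 y)
    rw [nhds_subtype, nhds_subtype]
    exact disjoint_comap (h x.2 y.2 fun e => hxy (Subtype.ext e))

end cor

/-- untwisted coordinates of the tube -/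
def tw (θ v : ℝ) (p : ℂ × ℝ) : E3 := scw (θ * p.2) (v * p.2) !₂[p.1.re, p.1.im, 0]

theorem continuous_scw : Continuous fun q : ℝ × ℝ × E3 => scw q.1 q.2.1 q.2.2 := by
  unfold scw; fun_prop

/-- the untwisting as a homeomorphism -/
def twH (θ : ℝ) {v : ℝ} (hv : v ≠ 0) : ℂ × ℝ ≃ₜ E3 where
  toFun := tw θ v
  invFun z := (⟨scw (-(θ * (z 2 / v))) 0 z 0, scw (-(θ * (z 2 / v))) 0 z 1⟩, z 2 / v)
  left_inv p := by
    have h : tw θ v p 2 / v = p.2 := by simp [tw, hv]
    simp only [h]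
    simp only [tw, scw_scw, neg_add_cancel]
    simp
  right_inv z := by
    have h : (!₂[scw (-(θ * (z 2 / v))) 0 z 0, scw (-(θ * (z 2 / v))) 0 z 1, 0] : E3) =
        scw (-(θ * (z 2 / v))) (-(v * (z 2 / v))) z :=
      E3_ext rfl rfl (by simp [mul_div_cancel₀ _ hv])
    simp only [tw, h, scw_scw, add_neg_cancel, scw_zero]
  continuous_toFun := by unfold tw scw; fun_prop
  continuous_invFun := by
    refine Continuous.prodMk ?_ (by fun_prop)
    refine Complex.equivRealProdCLM.symm.continuous.comp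
      (f := fun z : E3 => (scw (-(θ * (z 2 / v))) 0 z 0, scw (-(θ * (z 2 / v))) 0 z 1)) ?_
    simp only [scw_0, scw_1]
    fun_prop

theorem rad_tw (θ v : ℝ) (p : ℂ × ℝ) : rad (tw θ v p) = ‖p.1‖ := by
  rw [tw, rad_scw, Complex.norm_def, Complex.normSq_apply]
  unfold rad
  congr 1
  simp [sq]

theorem tw_add (θ v : ℝ) (p : ℂ × ℝ) (n : ℤ) :
    tw θ v (p.1, p.2 + n) = scw (n * θ) (n * v) (tw θ v p) := by
  simp only [tw, scw_scw]
  congr 1 <;> ring

theorem tw_polar {l : ℝ} (hl : l ≠ 0) (u v R x y r : ℝ) :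
    tw (2 * π / l * u) v (((r - -R : ℝ) : ℂ) * Complex.exp (2 * Real.pi * x * Complex.I), y) =
      pol (2 * π / l) R !₂[x * l + y * u, y * v, r] := by
  have h1 : (!₂[x * l + y * u, y * v, r] : E3) = sh (u * y) (v * y) !₂[x * l, 0, r] :=
    E3_ext (by simp [mul_comm]) (by simp [mul_comm]) rfl
  have h2 : (2 * Real.pi * x * Complex.I : ℂ) = ((2 * π * x : ℝ) : ℂ) * Complex.I := by
    push_cast; ring
  have h3 : 2 * π / l * (x * l) = 2 * π * x := by field_simp
  rw [h1, pol_sh, tw, mul_assoc (2 * π / l), h2]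
  congr 1
  refine E3_ext ?_ ?_ rfl
  · change (((r - -R : ℝ) : ℂ) * _).re = (r + R) * cos (2 * π / l * (x * l))
    rw [Complex.re_ofReal_mul, Complex.exp_ofReal_mul_I_re, h3, sub_neg_eq_add]
  · change (((r - -R : ℝ) : ℂ) * _).im = (r + R) * sin (2 * π / l * (x * l))
    rw [Complex.im_ofReal_mul, Complex.exp_ofReal_mul_I_im, h3, sub_neg_eq_add]

variable {M : Type} [TopologicalSpace M] [ChartedSpace E3 M]
  {M' : Type} [TopologicalSpace M'] [ChartedSpace E3 M'] [IsManifold 𝓘(ℝ, E3) ∞ M']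

/-- a smooth filling is a filling in the sense of `KeepT` -/
theorem IsFill.inC {G : Type} [Group G] {ψ : E3 → M} {l u v b R : ℝ} {U K : Set M} {U' : Set M'}
    {i : M → M'} {Φ : Unit → E3 → M'}
    (h : IsFill (fun _ => ψ) (fun _ => l) (fun _ => u) (fun _ => v) (fun _ => b) (fun _ => R)
      K U' i Φ) (hl : 0 < l) (hv : 0 < v) (hb : 0 < b) (hR : 0 < R)
    (hK : MapsTo ψ (slab (Ioo 0 b)) K) (hU : IsOpen U) (hKo : IsOpen K) (hKU : K ⊆ U)
    (hs : Hs U') (x₀ : U)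
    (hk : KeepT G (fun z : (ℝ × ℝ) × ℝ => cor x₀ (ψ !₂[z.1.1 * l + z.1.2 * u, z.1.2 * v, z.2]))
      0 b (Subtype.val ⁻¹' K)) : InC G U' := by
  have := hs_t2 hs
  have hm : ∀ z, rad z < b + R → Φ () z ∈ U' := fun z hz =>
    h.mem (fun _ => hl) (fun _ => hK) (j := ()) hz
  have hi : MapsTo i K U' := fun x hx => h.cover ▸ Or.inl ⟨x, hx, rfl⟩
  let y₀ : U' := ⟨Φ () 0, hm 0 (by simp [rad]; linarith)⟩
  let θ := 2 * π / l * u
  have hm' : MapsTo (Φ () ∘ tw θ v) {p | ‖p.1‖ < b - -R} U' := fun p hp =>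
    hm _ (by rw [rad_tw, ← sub_neg_eq_add]; exact hp)
  have hi' : MapsTo (i ∘ Subtype.val) (Subtype.val ⁻¹' K : Set U) U' := fun x hx => hi hx
  have hΦ : Continuous (Φ ()) := continuousOn_univ.1 (h.tube ()).smooth.continuousOn
  refine hk U' (fun x => cor y₀ ((i ∘ Subtype.val) x)) (fun p => cor y₀ ((Φ () ∘ tw θ v) p)) (-R)
    (by linarith) ⟨hKo.preimage continuous_subtype_val,
      cont_cor y₀ (h.emb.continuous.comp continuous_subtype_val).continuousOn hi',
      fun x hx y hy e => Subtype.ext (h.emb.injective ((cor_eq y₀ (hi' hx) (hi' hy)).1 e)),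
      fun W hW hWo => isOpen_cor y₀ (hi'.mono_left hW)
        ((h.emb.isOpenMap.comp hU.isOpenMap_subtype_val) W hWo)⟩
    ⟨cont_cor y₀ (hΦ.comp (twH θ hv.ne').continuous).continuousOn hm',
      fun W hW hWo => isOpen_cor y₀ (hm'.mono_left hW) ?_, fun p q hp hq => ?_⟩
    (fun x y r h0 h1 => ?_) (fun p hp x hx e => ?_) fun y => ?_
  · rw [image_comp]
    exact (h.tube ()).isOpen_image ((twH θ hv.ne').isOpenMap W hWo) (subset_univ _)
  · rw [cor_eq y₀ (hm' hp) (hm' hq)]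
    constructor
    · intro e
      obtain ⟨-, n, hn⟩ := h.fib () () _ _ e
      rw [scr_eq, ← tw_add] at hn
      exact ⟨n, ((twH θ hv.ne').injective hn).symm⟩
    · rintro ⟨n, rfl⟩
      simp only [Function.comp, tw_add]
      exact (h.per_int () n _).symm
  · have hp : (!₂[x * l + y * u, y * v, r] : E3) ∈ slab (Ioo 0 b) := ⟨h0, h1⟩
    simp only [Function.comp, θ, tw_polar hl.ne', cor_val x₀ (hKU (hK hp))]
    rw [← ka_eq, h.eq () _ hp]
  · have hp' : ‖p.1‖ ≤ R := by simpa using hp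
    have := (cor_eq y₀ (hm' (show ‖p.1‖ < b - -R by linarith)) (hi' hx)).1 e
    have h1 := (h.new () _ ⟨_, this.symm⟩).1
    rw [rad_tw] at h1
    linarith
  · obtain ⟨y, hy⟩ := y
    have hy' := hy
    rw [h.cover' (fun _ => hl) (fun _ => hK) (fun _ => hb)] at hy'
    rcases hy' with ⟨x, hx, rfl⟩ | hy'
    · exact Or.inl ⟨⟨x, hKU hx⟩, hx, Subtype.ext (cor_val y₀ hy)⟩
    · obtain ⟨_, z, hz, rfl⟩ := mem_iUnion.1 hy'
      obtain ⟨p, rfl⟩ := (twH θ hv.ne').surjective z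
      have hz' : rad (tw θ v p) < b + R := hz
      rw [rad_tw, ← sub_neg_eq_add] at hz'
      exact Or.inr ⟨p, hz', Subtype.ext (cor_val y₀ hy)⟩

/-- lattice coordinates -/
def lat (a b : ℝ × ℝ) (z : (ℝ × ℝ) × ℝ) : E3 :=
  !₂[z.1.1 * a.1 + z.1.2 * b.1, z.1.1 * a.2 + z.1.2 * b.2, z.2]

/-- lattice coordinates as a homeomorphism -/
def latH {a b : ℝ × ℝ} (h : a.1 * b.2 - a.2 * b.1 ≠ 0) : (ℝ × ℝ) × ℝ ≃ₜ E3 where
  toFun := lat a b
  invFun p := (((p 0 * b.2 - p 1 * b.1) / (a.1 * b.2 - a.2 * b.1),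
    (p 1 * a.1 - p 0 * a.2) / (a.1 * b.2 - a.2 * b.1)), p 2)
  left_inv z := by
    refine Prod.ext (Prod.ext ?_ ?_) rfl <;> simp only [lat] <;> rw [div_eq_iff h] <;> simp <;> ring
  right_inv p := by
    refine E3_ext ?_ ?_ rfl
    · change _ / _ * a.1 + _ / _ * b.1 = p 0
      rw [div_mul_eq_mul_div, div_mul_eq_mul_div, ← add_div, div_eq_iff h]
      ring
    · change _ / _ * a.2 + _ / _ * b.2 = p 1
      rw [div_mul_eq_mul_div, div_mul_eq_mul_div, ← add_div, div_eq_iff h]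
      ring
  continuous_toFun := by unfold lat; fun_prop
  continuous_invFun := by fun_prop

theorem lat_add (a b : ℝ × ℝ) (z : (ℝ × ℝ) × ℝ) (m n : ℝ) :
    lat a b ((z.1.1 + m, z.1.2 + n), z.2) =
      sh (m * a.1 + n * b.1) (m * a.2 + n * b.2) (lat a b z) :=
  E3_ext (by simp [lat]; ring) (by simp [lat]; ring) rfl

/-- a smooth periodic collar gives a topological collar -/
theorem collar_of [IsManifold 𝓘(ℝ, E3) ∞ M] {ψ : E3 → M} {U : Set M} {a b : ℝ × ℝ} {s t : ℝ}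
    (h : a.1 * b.2 - a.2 * b.1 ≠ 0) (hl : LD E3 ψ (slab (Ioo s t)))
    (hm : MapsTo ψ (slab (Ioo s t)) U)
    (he : ∀ p ∈ slab (Ioo s t), ∀ q ∈ slab (Ioo s t),
      ψ p = ψ q ↔ ∃ m n : ℤ, q = sh (m * a.1 + n * b.1) (m * a.2 + n * b.2) p) (x₀ : U) :
    Collar (fun z => cor x₀ (ψ (lat a b z))) s t := by
  have h1 : MapsTo (lat a b) (P216T.slab s t) (slab (Ioo s t)) := fun _ hz => hz
  refine ⟨cont_cor x₀ (hl.smooth.continuousOn.comp (latH h).continuous.continuousOn h1)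
    (hm.comp h1), fun W hW hWo => isOpen_cor x₀ (f := ψ ∘ lat a b) ((hm.comp h1).mono_left hW) ?_,
    fun p hp q hq => ?_⟩
  · rw [image_comp]
    exact hl.isOpen_image ((latH h).isOpenMap W hWo) (h1.mono_left hW).image_subset
  · rw [cor_eq x₀ (hm (h1 hp)) (hm (h1 hq)), he _ (h1 hp) _ (h1 hq)]
    refine exists₂_congr fun m n => ?_
    rw [← lat_add]
    exact (latH h).injective.eq_iff

end Vale.Agent.P216FL
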