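import Vale.Agent.P216FL.Inv
import Mathlib.Geometry.Manifold.ContMDiff.Constructions
import Mathlib.Geometry.Manifold.MFDeriv.SpecificFunctions

/-!
# Gluing two manifolds along two local diffeomorphisms with the same fibres
-/

open Set Topology Manifold
open Filter hiding comap comap_id
open scoped ContDiff

noncomputable section

namespace Vale.Agent.P216FL

open Vale.Agent.P216R

variable {E : Type} [NormedAddCommGroup E] [NormedSpace ℝ E]
  {A : Type} [TopologicalSpace A] [ChartedSpace E A]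
  {B : Type} [TopologicalSpace B] [ChartedSpace E B]
  {P : Type} [TopologicalSpace P] [ChartedSpace E P]

variable (E A B P) in
/-- Gluing data: `ψ p` is identified with `κ p` for `p ∈ S`. -/
structure Gl where
  S : Set P
  ψ : P → A
  κ : P → B
  hψ : LD E ψ S
  hκ : LD E κ S
  fib : ∀ p ∈ S, ∀ q ∈ S, ψ p = ψ q ↔ κ p = κ q

theorem sm_elim_inl {C : Type} [TopologicalSpace C] [ChartedSpace E C] {f : A → C} {g : B → C}
    {a : A} (h : SM E f a) : SM E (Sum.elim f g) (Sum.inl a) := by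
  have h1 : ContMDiff 𝓘(ℝ, E) 𝓘(ℝ, E) ∞ (Sum.elim id (fun _ : B => a)) :=
    contMDiff_id.sumElim contMDiff_const
  have h2 : SM E f (Sum.elim id (fun _ : B => a) (Sum.inl a)) := h
  refine (h2.comp _ (h1 _)).congr_of_eventuallyEq ?_
  filter_upwards [isOpen_range_inl.mem_nhds (mem_range_self a)]
  rintro _ ⟨x, rfl⟩
  rfl

theorem sm_elim_inr {C : Type} [TopologicalSpace C] [ChartedSpace E C] {f : A → C} {g : B → C}
    {b : B} (h : SM E g b) : SM E (Sum.elim f g) (Sum.inr b) := by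
  have h1 : ContMDiff 𝓘(ℝ, E) 𝓘(ℝ, E) ∞ (Sum.elim (fun _ : A => b) id) :=
    contMDiff_const.sumElim contMDiff_id
  have h2 : SM E g (Sum.elim (fun _ : A => b) id (Sum.inr b)) := h
  refine (h2.comp _ (h1 _)).congr_of_eventuallyEq ?_
  filter_upwards [isOpen_range_inr.mem_nhds (mem_range_self b)]
  rintro _ ⟨x, rfl⟩
  rfl

theorem md_inl (a : A) : md E (Sum.inl : A → A ⊕ B) a = ContinuousLinearMap.id ℝ E :=
  mfderiv_sumInl (p := Sum.inl a)

theorem md_inr (b : B) : md E (Sum.inr : B → A ⊕ B) b = ContinuousLinearMap.id ℝ E :=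
  mfderiv_sumInr

theorem ld_inl : LD E (Sum.inl : A → A ⊕ B) univ :=
  ⟨isOpen_univ, ContMDiff.inl.contMDiffOn, fun a _ => by rw [md_inl]; exact fun _ _ h => h⟩

theorem ld_inr : LD E (Sum.inr : B → A ⊕ B) univ :=
  ⟨isOpen_univ, ContMDiff.inr.contMDiffOn, fun a _ => by rw [md_inr]; exact fun _ _ h => h⟩

theorem comap_inl (g : Ten E (A ⊕ B)) (a : A) : comap Sum.inl g a = g (Sum.inl a) := by
  ext v w; rw [comap_apply, md_inl]; rfl

theorem comap_inr (g : Ten E (A ⊕ B)) (b : B) : comap Sum.inr g b = g (Sum.inr b) := by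
  ext v w; rw [comap_apply, md_inr]; rfl

namespace Gl

variable (D : Gl E A B P)

/-- The gluing relation. -/
def rel : A ⊕ B → A ⊕ B → Prop
  | .inl a, .inl a' => a = a'
  | .inr b, .inr b' => b = b'
  | .inl a, .inr b => ∃ p ∈ D.S, D.ψ p = a ∧ D.κ p = b
  | .inr b, .inl a => ∃ p ∈ D.S, D.ψ p = a ∧ D.κ p = b

/-- The gluing relation is an equivalence relation. -/
def setoid : Setoid (A ⊕ B) where
  r := D.rel
  iseqv := by
    refine ⟨?_, ?_, ?_⟩
    · rintro (a | b) <;> rfl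
    · rintro (a | b) (a' | b') h
      exacts [Eq.symm h, h, h, Eq.symm h]
    · rintro (a | b) (a' | b') (a'' | b'') h h'
      · exact Eq.trans h h'
      · obtain rfl : a = a' := h
        exact h'
      · obtain ⟨p, hp, rfl, rfl⟩ := h
        obtain ⟨q, hq, rfl, h2⟩ := h'
        exact (D.fib p hp q hq).2 h2.symm
      · obtain rfl : b' = b'' := h'
        exact h
      · obtain rfl : a' = a'' := h'
        exact h
      · obtain ⟨p, hp, rfl, rfl⟩ := h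
        obtain ⟨q, hq, h2, rfl⟩ := h'
        exact (D.fib p hp q hq).1 h2.symm
      · obtain rfl : b = b' := h
        exact h'
      · exact Eq.trans h h'

variable [FiniteDimensional ℝ E] [IsManifold 𝓘(ℝ, E) ∞ A] [IsManifold 𝓘(ℝ, E) ∞ B]
  [IsManifold 𝓘(ℝ, E) ∞ P]

theorem dif' {gA : Ten E A} {gB : Ten E B} (x y : A ⊕ B) (h : D.rel x y) :
    ∃ τ : A ⊕ B → A ⊕ B, τ x = y ∧ SM E τ x ∧ (∀ᶠ z in 𝓝 x, D.rel (τ z) z) ∧
      ((∀ p ∈ D.S, comap D.ψ gA p = comap D.κ gB p) →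
        comap τ (Sum.elim gA gB) x = Sum.elim gA gB x) := by
  have triv : ∃ τ : A ⊕ B → A ⊕ B, τ x = x ∧ SM E τ x ∧ (∀ᶠ z in 𝓝 x, D.rel (τ z) z) ∧
      ((∀ p ∈ D.S, comap D.ψ gA p = comap D.κ gB p) →
        comap τ (Sum.elim gA gB) x = Sum.elim gA gB x) :=
    ⟨id, rfl, contMDiffAt_id, Eventually.of_forall fun z => D.setoid.refl' z,
      fun _ => by rw [comap_id]⟩
  rcases x with a | b <;> rcases y with a' | b'
  · obtain rfl : a = a' := h
    exact triv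
  · obtain ⟨p, hp, rfl, rfl⟩ := h
    obtain ⟨σ, k0, k1, k2, -⟩ := ld_inv D.hψ hp
    have k3 : SM E D.κ (σ (D.ψ p)) := by rw [k0]; exact D.hκ.sm hp
    have k3' : SM E D.ψ (σ (D.ψ p)) := by rw [k0]; exact D.hψ.sm hp
    have k4 : ∀ᶠ y in 𝓝 (D.ψ p), σ y ∈ D.S :=
      k1.continuousAt (by rw [k0]; exact D.hψ.isOpen.mem_nhds hp)
    have k5 : SM E (Sum.inr ∘ D.κ ∘ σ : A → A ⊕ B) (D.ψ p) :=
      (ContMDiff.inr _).comp _ (k3.comp _ k1)
    refine ⟨Sum.elim (Sum.inr ∘ D.κ ∘ σ) Sum.inr, by simp [k0], sm_elim_inl k5, ?_, fun hg => ?_⟩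
    · rw [nhds_inl, eventually_map]
      filter_upwards [k2, k4] with y hy hy'
      exact ⟨σ y, hy', hy, rfl⟩
    · rw [← comap_inl (comap _ _), comap_comp _ (sm_elim_inl k5).md (SM.md (ContMDiff.inl _))]
      change comap (Sum.inr ∘ D.κ ∘ σ) (Sum.elim gA gB) (D.ψ p) = gA (D.ψ p)
      rw [← comap_comp _ (SM.md (ContMDiff.inr _)) (SM.md (k3.comp _ k1)),
        comap_congr_right (h := gB) _ (comap_inr _ _), ← comap_comp _ k3.md k1.md,
        comap_congr_right (h := comap D.ψ gA) _ (by rw [k0]; exact (hg p hp).symm),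
        comap_comp _ k3'.md k1.md, comap_congr (f := D.ψ ∘ σ) (f' := id) _ k2, comap_id]
  · obtain ⟨p, hp, rfl, rfl⟩ := h
    obtain ⟨σ, k0, k1, k2, -⟩ := ld_inv D.hκ hp
    have k3 : SM E D.ψ (σ (D.κ p)) := by rw [k0]; exact D.hψ.sm hp
    have k3' : SM E D.κ (σ (D.κ p)) := by rw [k0]; exact D.hκ.sm hp
    have k4 : ∀ᶠ y in 𝓝 (D.κ p), σ y ∈ D.S :=
      k1.continuousAt (by rw [k0]; exact D.hκ.isOpen.mem_nhds hp)
    have k5 : SM E (Sum.inl ∘ D.ψ ∘ σ : B → A ⊕ B) (D.κ p) :=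
      (ContMDiff.inl _).comp _ (k3.comp _ k1)
    refine ⟨Sum.elim Sum.inl (Sum.inl ∘ D.ψ ∘ σ), by simp [k0], sm_elim_inr k5, ?_, fun hg => ?_⟩
    · rw [nhds_inr, eventually_map]
      filter_upwards [k2, k4] with y hy hy'
      exact ⟨σ y, hy', rfl, hy⟩
    · rw [← comap_inr (comap _ _), comap_comp _ (sm_elim_inr k5).md (SM.md (ContMDiff.inr _))]
      change comap (Sum.inl ∘ D.ψ ∘ σ) (Sum.elim gA gB) (D.κ p) = gB (D.κ p)
      rw [← comap_comp _ (SM.md (ContMDiff.inl _)) (SM.md (k3.comp _ k1)),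
        comap_congr_right (h := gA) _ (comap_inl _ _), ← comap_comp _ k3.md k1.md,
        comap_congr_right (h := comap D.κ gB) _ (by rw [k0]; exact hg p hp),
        comap_comp _ k3'.md k1.md, comap_congr (f := D.κ ∘ σ) (f' := id) _ k2, comap_id]
  · obtain rfl : b = b' := h
    exact triv

/-- The gluing relation is etale. -/
def et : Et E (A ⊕ B) where
  s := D.setoid
  inj := by
    rintro (a | b)
    · refine ⟨range Sum.inl, isOpen_range_inl.mem_nhds (mem_range_self a), ?_⟩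
      rintro _ ⟨x, rfl⟩ _ ⟨y, rfl⟩ h
      exact congrArg _ h
    · refine ⟨range Sum.inr, isOpen_range_inr.mem_nhds (mem_range_self b), ?_⟩
      rintro _ ⟨x, rfl⟩ _ ⟨y, rfl⟩ h
      exact congrArg _ h
  dif x y h := by
    obtain ⟨τ, h1, h2, h3, -⟩ := D.dif' (gA := 0) (gB := 0) x y h
    exact ⟨τ, h1, h2, h3⟩

/-- The glued manifold. -/
abbrev Q : Type := D.et.Q

/-- The inclusion of the first piece. -/
def iA (a : A) : D.Q := D.et.pr (Sum.inl a)

/-- The inclusion of the second piece. -/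
def iB (b : B) : D.Q := D.et.pr (Sum.inr b)

theorem iA_inj : Function.Injective D.iA := fun _ _ h => D.et.pr_eq.1 h

theorem iB_inj : Function.Injective D.iB := fun _ _ h => D.et.pr_eq.1 h

theorem iA_eq_iB {a : A} {b : B} : D.iA a = D.iB b ↔ ∃ p ∈ D.S, D.ψ p = a ∧ D.κ p = b :=
  D.et.pr_eq

theorem iA_ψ {p : P} (hp : p ∈ D.S) : D.iA (D.ψ p) = D.iB (D.κ p) :=
  D.iA_eq_iB.2 ⟨p, hp, rfl, rfl⟩

theorem cases (q : D.Q) : (∃ a, D.iA a = q) ∨ ∃ b, D.iB b = q := by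
  obtain ⟨a | b, h⟩ := D.et.pr_surj q
  exacts [Or.inl ⟨a, h⟩, Or.inr ⟨b, h⟩]

theorem ld_iA : LD E D.iA univ := D.et.ld_pr.comp ld_inl (mapsTo_univ _ _)

theorem ld_iB : LD E D.iB univ := D.et.ld_pr.comp ld_inr (mapsTo_univ _ _)

theorem iA_emb : IsOpenEmbedding D.iA :=
  (D.et.pr_lh.comp IsOpenEmbedding.inl.isLocalHomeomorph).isOpenEmbedding_of_injective D.iA_inj

theorem iB_emb : IsOpenEmbedding D.iB :=
  (D.et.pr_lh.comp IsOpenEmbedding.inr.isLocalHomeomorph).isOpenEmbedding_of_injective D.iB_inj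

/-- The glued tensor. -/
def ten (gA : Ten E A) (gB : Ten E B) : Ten E D.Q := D.et.dn (Sum.elim gA gB)

variable {gA : Ten E A} {gB : Ten E B}

theorem comap_pr (hg : ∀ p ∈ D.S, comap D.ψ gA p = comap D.κ gB p) :
    comap D.et.pr (D.ten gA gB) = Sum.elim gA gB := by
  funext x
  refine D.et.comap_dn fun y h => ?_
  obtain ⟨τ, h1, h2, h3, h4⟩ := D.dif' (gA := gA) (gB := gB) x y h
  exact ⟨τ, h1, h2, h3, h4 hg⟩

theorem comap_iA (hg : ∀ p ∈ D.S, comap D.ψ gA p = comap D.κ gB p) :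
    comap D.iA (D.ten gA gB) = gA := by
  funext a
  change comap (D.et.pr ∘ Sum.inl) _ a = _
  rw [← comap_comp _ (D.et.ld_pr.md (mem_univ _)) (ld_inl.md (mem_univ _)), D.comap_pr hg,
    comap_inl]
  rfl

theorem comap_iB (hg : ∀ p ∈ D.S, comap D.ψ gA p = comap D.κ gB p) :
    comap D.iB (D.ten gA gB) = gB := by
  funext b
  change comap (D.et.pr ∘ Sum.inr) _ b = _
  rw [← comap_comp _ (D.et.ld_pr.md (mem_univ _)) (ld_inr.md (mem_univ _)), D.comap_pr hg,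
    comap_inr]
  rfl

theorem met (hg : ∀ p ∈ D.S, comap D.ψ gA p = comap D.κ gB p) {U : Set A} {V : Set B}
    (hU : Met gA U) (hV : Met gB V) : Met (D.ten gA gB) (D.iA '' U ∪ D.iB '' V) :=
  met_union
    (met_image (D.ld_iA.mono hU.isOpen (subset_univ _)) (by rw [D.comap_iA hg]; exact hU))
    (met_image (D.ld_iB.mono hV.isOpen (subset_univ _)) (by rw [D.comap_iB hg]; exact hV))

/-- Hausdorff criterion: unglued points of the two pieces have no glued pair nearby. -/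
theorem hs {U : Set A} {V : Set B} (hU : Hs U) (hV : Hs V)
    (h : ∀ a ∈ U, ∀ b ∈ V, D.iA a ≠ D.iB b →
      ∃ s ∈ 𝓝 a, ∃ t ∈ 𝓝 b, ∀ p ∈ D.S, D.ψ p ∈ s → D.κ p ∉ t) :
    Hs (D.iA '' U ∪ D.iB '' V) := by
  have key : ∀ a ∈ U, ∀ b ∈ V, D.iA a ≠ D.iB b → Disjoint (𝓝 (D.iA a)) (𝓝 (D.iB b)) := by
    intro a ha b hb hab
    obtain ⟨s, hs, t, ht, hst⟩ := h a ha b hb hab
    rw [← D.iA_emb.map_nhds_eq, ← D.iB_emb.map_nhds_eq, Filter.disjoint_iff]
    refine ⟨_, image_mem_map hs, _, image_mem_map ht, Set.disjoint_left.2 ?_⟩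
    rintro _ ⟨x, hx, rfl⟩ ⟨y, hy, hxy⟩
    obtain ⟨p, hp, rfl, rfl⟩ := D.iA_eq_iB.1 hxy.symm
    exact hst p hp hx hy
  rintro _ (⟨a, ha, rfl⟩ | ⟨b, hb, rfl⟩) _ (⟨a', ha', rfl⟩ | ⟨b', hb', rfl⟩) hne
  · rw [← D.iA_emb.map_nhds_eq, ← D.iA_emb.map_nhds_eq, disjoint_map D.iA_inj]
    exact hU ha ha' fun h => hne (congrArg _ h)
  · exact key a ha b' hb' hne
  · exact (key a' ha' b hb hne.symm).symm
  · rw [← D.iB_emb.map_nhds_eq, ← D.iB_emb.map_nhds_eq, disjoint_map D.iB_inj]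
    exact hV hb hb' fun h => hne (congrArg _ h)

/-- A map out of the glued space. -/
def lift {Z : Type} (f : A → Z) (g : B → Z) (h : ∀ p ∈ D.S, f (D.ψ p) = g (D.κ p)) : D.Q → Z :=
  Quotient.lift (Sum.elim f g) (by
    rintro (a | b) (a' | b') hh
    · exact congrArg f hh
    · obtain ⟨p, hp, rfl, rfl⟩ := hh
      exact h p hp
    · obtain ⟨p, hp, rfl, rfl⟩ := hh
      exact (h p hp).symm
    · exact congrArg g hh)

theorem lift_iA {Z : Type} (f : A → Z) (g : B → Z) (h : ∀ p ∈ D.S, f (D.ψ p) = g (D.κ p)) (a : A) :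
    D.lift f g h (D.iA a) = f a := rfl

theorem lift_iB {Z : Type} (f : A → Z) (g : B → Z) (h : ∀ p ∈ D.S, f (D.ψ p) = g (D.κ p)) (b : B) :
    D.lift f g h (D.iB b) = g b := rfl

end Gl

end Vale.Agent.P216FL
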